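import Vale.Agent.P227.M.Defs

/-! # P227/M: basic facts about the definitions (part 1: derivatives, growth, integrability, `Ex`). -/

open MeasureTheory
open scoped Topology

namespace Vale.Agent.P227.M

variable {n : ℕ}

/-! ## Derivatives -/

theorem norm_ei (i : Fin n) : ‖(ei i : E n)‖ = 1 := by simp [ei]

theorem ei_apply (i j : Fin n) : (ei i : E n) j = if j = i then 1 else 0 := by
  simp [ei]

theorem sum_smul_ei (v : E n) : ∑ i, v i • (ei i : E n) = v := by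
  ext j
  simp [ei_apply]

theorem fderiv_eq_sum (f : E n → ℝ) (x v : E n) : fderiv ℝ f x v = ∑ i, v i * pd i f x := by
  conv_lhs => rw [← sum_smul_ei v]
  rw [map_sum]
  simp [pd]

theorem abs_coord_le (x : E n) (i : Fin n) : |x i| ≤ ‖x‖ := by
  have h := EuclideanSpace.norm_eq x
  have h1 : |x i| ^ 2 ≤ ∑ j, ‖x j‖ ^ 2 := by
    have := Finset.single_le_sum (f := fun j => ‖x j‖ ^ 2) (fun j _ => sq_nonneg _) (Finset.mem_univ i)
    simpa using this
  rw [h]
  exact Real.le_sqrt_of_sq_le h1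

theorem norm_sq_eq_sum (x : E n) : ‖x‖ ^ 2 = ∑ i, x i ^ 2 := by
  rw [EuclideanSpace.norm_sq_eq]
  simp

theorem contDiff_pd {f : E n → ℝ} {k m : WithTop ℕ∞} (hf : ContDiff ℝ m f) (hk : k + 1 ≤ m)
    (i : Fin n) : ContDiff ℝ k (pd i f) := by
  have h := hf.fderiv_right (m := k) hk
  exact h.clm_apply contDiff_const

theorem contDiff_pd_top {f : E n → ℝ} (hf : ContDiff ℝ (⊤ : ℕ∞) f) (i : Fin n) :
    ContDiff ℝ (⊤ : ℕ∞) (pd i f) := contDiff_pd hf (by simp) i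

theorem hess_eq {f : E n → ℝ} (hf : ContDiff ℝ 2 f) (x : E n) (i j : Fin n) :
    hess f x i j = (fderiv ℝ (fderiv ℝ f) x (ei i)) (ei j) := by
  have h1 : DifferentiableAt ℝ (fderiv ℝ f) x :=
    ((hf.fderiv_right (m := 1) (by norm_num)).differentiable (by norm_num)) x
  unfold hess pd
  rw [fderiv_clm_apply h1 (differentiableAt_const _)]
  simp

theorem hess_symm {f : E n → ℝ} (hf : ContDiff ℝ 2 f) (x : E n) (i j : Fin n) :
    hess f x i j = hess f x j i := by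
  rw [hess_eq hf, hess_eq hf]
  have h : IsSymmSndFDerivAt ℝ f x := hf.contDiffAt.isSymmSndFDerivAt (by simp)
  exact h.eq (ei i) (ei j)

theorem hess_isSymm {f : E n → ℝ} (hf : ContDiff ℝ 2 f) (x : E n) : (hess f x).IsSymm := by
  ext i j
  exact hess_symm hf x j i

theorem continuous_hess {f : E n → ℝ} (hf : ContDiff ℝ 2 f) (i j : Fin n) :
    Continuous (fun x => hess f x i j) := by
  have h1 : ContDiff ℝ 1 (pd j f) := contDiff_pd hf (by norm_num) j
  have h2 : ContDiff ℝ 0 (pd i (pd j f)) := contDiff_pd h1 (by norm_num) i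
  exact h2.continuous

theorem contDiff_hess_top {f : E n → ℝ} (hf : ContDiff ℝ (⊤ : ℕ∞) f) (i j : Fin n) :
    ContDiff ℝ (⊤ : ℕ∞) (fun x => hess f x i j) :=
  contDiff_pd_top (contDiff_pd_top hf j) i

theorem hess_eq_iter {f : E n → ℝ} (hf : ContDiff ℝ 2 f) (x : E n) (i j : Fin n) :
    hess f x i j = iteratedFDeriv ℝ 2 f x ![ei i, ei j] := by
  rw [hess_eq hf, iteratedFDeriv_two_apply]
  simp

theorem abs_hess_le {f : E n → ℝ} (hf : ContDiff ℝ 2 f) {B : ℝ}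
    (hB : ∀ x, ‖iteratedFDeriv ℝ 2 f x‖ ≤ B) (x : E n) (i j : Fin n) : |hess f x i j| ≤ B := by
  rw [hess_eq_iter hf]
  have h := (iteratedFDeriv ℝ 2 f x).le_opNorm ![ei i, ei j]
  rw [Fin.prod_univ_two] at h
  simp only [Matrix.cons_val_zero, Matrix.cons_val_one, norm_ei, mul_one] at h
  rw [← Real.norm_eq_abs]
  exact h.trans (hB x)

theorem qf_hess_eq {f : E n → ℝ} (hf : ContDiff ℝ 2 f) (x v : E n) :
    qf (hess f x) v = (fderiv ℝ (fderiv ℝ f) x v) v := by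
  conv_rhs => rw [← sum_smul_ei v]
  unfold qf
  simp only [map_sum, map_smul, sum_apply, smul_apply,
    smul_eq_mul, hess_eq hf, Finset.mul_sum]
  rw [Finset.sum_comm]
  refine Finset.sum_congr rfl fun i _ => Finset.sum_congr rfl fun j _ => ?_
  ring

theorem norm_fderiv_fderiv_le {f : E n → ℝ} {B : ℝ}
    (hB : ∀ x, ‖iteratedFDeriv ℝ 2 f x‖ ≤ B) (x : E n) : ‖fderiv ℝ (fderiv ℝ f) x‖ ≤ B := by
  have h := norm_iteratedFDeriv_fderiv (𝕜 := ℝ) (f := f) (n := 1) (x := x)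
  have h2 := norm_iteratedFDeriv_fderiv (𝕜 := ℝ) (f := fderiv ℝ f) (n := 0) (x := x)
  rw [norm_iteratedFDeriv_zero] at h2
  rw [h2, h]
  exact hB x

theorem norm_fderiv_le {f : E n → ℝ} (hf : ContDiff ℝ 2 f) {B : ℝ}
    (hB : ∀ x, ‖iteratedFDeriv ℝ 2 f x‖ ≤ B) (x : E n) :
    ‖fderiv ℝ f x‖ ≤ ‖fderiv ℝ f 0‖ + B * ‖x‖ := by
  have h1 : Differentiable ℝ (fderiv ℝ f) :=
    (hf.fderiv_right (m := 1) (by norm_num)).differentiable (by norm_num)
  have h2 := (convex_univ : Convex ℝ (Set.univ : Set (E n))).norm_image_sub_le_of_norm_fderiv_le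
    (f := fderiv ℝ f) (C := B) (x := 0) (y := x) (fun z _ => h1 z)
    (fun z _ => norm_fderiv_fderiv_le hB z) (Set.mem_univ _) (Set.mem_univ _)
  rw [sub_zero] at h2
  calc ‖fderiv ℝ f x‖ = ‖fderiv ℝ f 0 + (fderiv ℝ f x - fderiv ℝ f 0)‖ := by rw [add_sub_cancel]
    _ ≤ ‖fderiv ℝ f 0‖ + ‖fderiv ℝ f x - fderiv ℝ f 0‖ := norm_add_le _ _
    _ ≤ _ := by gcongr

theorem abs_pd_le_norm (f : E n → ℝ) (x : E n) (i : Fin n) : |pd i f x| ≤ ‖fderiv ℝ f x‖ := by
  have h := (fderiv ℝ f x).le_opNorm (ei i)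
  rw [norm_ei, mul_one] at h
  exact h

/-- a regular quadratic lower bound -/
theorem lower_quad {f : E n → ℝ} (hf : ContDiff ℝ 2 f) {c : ℝ}
    (hc : ∀ x v, c * ‖v‖ ^ 2 ≤ qf (hess f x) v) (x : E n) :
    f 0 + fderiv ℝ f 0 x + c / 2 * ‖x‖ ^ 2 ≤ f x := by
  have hd : Differentiable ℝ f := hf.differentiable (by norm_num)
  have h1 : Differentiable ℝ (fderiv ℝ f) :=
    (hf.fderiv_right (m := 1) (by norm_num)).differentiable (by norm_num)
  have hline : ∀ t : ℝ, HasDerivAt (fun t : ℝ => t • x) x t := fun t => by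
    simpa using (hasDerivAt_id t).smul_const x
  have hg : ∀ t : ℝ, HasDerivAt (fun t : ℝ => f (t • x)) (fderiv ℝ f (t • x) x) t := fun t =>
    (hd (t • x)).hasFDerivAt.comp_hasDerivAt t (hline t)
  have hg2 : ∀ t : ℝ, HasDerivAt (fun t : ℝ => fderiv ℝ f (t • x) x)
      ((fderiv ℝ (fderiv ℝ f) (t • x) x) x) t := fun t => by
    have h := (h1 (t • x)).hasFDerivAt.comp_hasDerivAt t (hline t)
    have h' := h.clm_apply (hasDerivAt_const t x)
    simpa using h'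
  have hm : MonotoneOn (fun t : ℝ => fderiv ℝ f (t • x) x - c * t * ‖x‖ ^ 2) (Set.Ici 0) := by
    refine monotoneOn_of_deriv_nonneg (convex_Ici 0) ?_ ?_ ?_
    · exact fun t _ => (((hg2 t).sub (((hasDerivAt_id t).const_mul c).mul_const
        (‖x‖ ^ 2))).continuousAt).continuousWithinAt
    · exact fun t _ => (((hg2 t).sub (((hasDerivAt_id t).const_mul c).mul_const
        (‖x‖ ^ 2))).differentiableAt).differentiableWithinAt
    · intro t _
      have h := ((hg2 t).sub (((hasDerivAt_id t).const_mul c).mul_const (‖x‖ ^ 2))).deriv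
      have h' : deriv (fun t : ℝ => fderiv ℝ f (t • x) x - c * t * ‖x‖ ^ 2) t
          = (fderiv ℝ (fderiv ℝ f) (t • x) x) x - c * 1 * ‖x‖ ^ 2 := h
      rw [h', ← qf_hess_eq hf]
      have := hc (t • x) x
      linarith
  have hm2 : MonotoneOn (fun t : ℝ => f (t • x) - t * fderiv ℝ f 0 x - c / 2 * t ^ 2 * ‖x‖ ^ 2)
      (Set.Ici 0) := by
    have hder : ∀ t : ℝ, HasDerivAt
        (fun t : ℝ => f (t • x) - t * fderiv ℝ f 0 x - c / 2 * t ^ 2 * ‖x‖ ^ 2)
        (fderiv ℝ f (t • x) x - fderiv ℝ f 0 x - c * t * ‖x‖ ^ 2) t := fun t => by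
      have h := ((hg t).sub ((hasDerivAt_id t).mul_const (fderiv ℝ f 0 x))).sub
        ((((hasDerivAt_id t).pow 2).const_mul (c / 2)).mul_const (‖x‖ ^ 2))
      refine h.congr_deriv ?_
      simp only [id_eq, Nat.cast_ofNat, one_mul, mul_one, Nat.add_one_sub_one, pow_one]
      ring
    refine monotoneOn_of_deriv_nonneg (convex_Ici 0)
      (fun t _ => (hder t).continuousAt.continuousWithinAt)
      (fun t _ => (hder t).differentiableAt.differentiableWithinAt) ?_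
    intro t ht
    rw [interior_Ici] at ht
    rw [(hder t).deriv]
    have h := hm (Set.mem_Ici.2 le_rfl) (Set.mem_Ici.2 (le_of_lt ht)) (le_of_lt ht)
    simp only [zero_smul, mul_zero, zero_mul, sub_zero] at h
    linarith
  have h := hm2 (Set.mem_Ici.2 le_rfl) (Set.mem_Ici.2 zero_le_one) zero_le_one
  simp only [zero_smul, zero_mul, one_smul, one_mul, one_pow, mul_one] at h
  norm_num at h
  linarith

/-! ## Functions of polynomial growth -/

/-- continuous functions of polynomial growth -/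
def Gr (f : E n → ℝ) : Prop := Continuous f ∧ ∃ (B : ℝ) (k : ℕ), 0 ≤ B ∧ ∀ x, |f x| ≤ B * (1 + ‖x‖) ^ k

theorem one_le_one_add_norm (x : E n) : (1 : ℝ) ≤ 1 + ‖x‖ := by linarith [norm_nonneg x]

theorem Gr.cont {f : E n → ℝ} (hf : Gr f) : Continuous f := hf.1

theorem Gr.of_bound {f : E n → ℝ} (hf : Continuous f) {B : ℝ} (hB : ∀ x, |f x| ≤ B) : Gr f := by
  refine ⟨hf, |B|, 0, abs_nonneg _, fun x => ?_⟩
  simpa using (hB x).trans (le_abs_self B)

theorem Gr.const (c : ℝ) : Gr (fun _ : E n => c) := Gr.of_bound continuous_const fun _ => le_rfl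

theorem Gr.coord (i : Fin n) : Gr (fun x : E n => x i) := by
  refine ⟨by fun_prop, 1, 1, zero_le_one, fun x => ?_⟩
  have := abs_coord_le x i
  rw [pow_one, one_mul]
  linarith

theorem Gr.norm : Gr (fun x : E n => ‖x‖) := by
  refine ⟨continuous_norm, 1, 1, zero_le_one, fun x => ?_⟩
  rw [abs_norm, pow_one, one_mul]
  linarith

theorem Gr.add {f g : E n → ℝ} (hf : Gr f) (hg : Gr g) : Gr (fun x => f x + g x) := by
  obtain ⟨hfc, B, k, hB, hb⟩ := hf
  obtain ⟨hgc, D, l, hD, hd⟩ := hg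
  refine ⟨hfc.add hgc, B + D, k + l, add_nonneg hB hD, fun x => ?_⟩
  have h1 := one_le_one_add_norm x
  have hk : (1 + ‖x‖) ^ k ≤ (1 + ‖x‖) ^ (k + l) := pow_le_pow_right₀ h1 (Nat.le_add_right _ _)
  have hl : (1 + ‖x‖) ^ l ≤ (1 + ‖x‖) ^ (k + l) := pow_le_pow_right₀ h1 (Nat.le_add_left _ _)
  calc |f x + g x| ≤ |f x| + |g x| := abs_add_le _ _
    _ ≤ B * (1 + ‖x‖) ^ k + D * (1 + ‖x‖) ^ l := add_le_add (hb x) (hd x)
    _ ≤ B * (1 + ‖x‖) ^ (k + l) + D * (1 + ‖x‖) ^ (k + l) := by gcongr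
    _ = _ := by ring

theorem Gr.mul {f g : E n → ℝ} (hf : Gr f) (hg : Gr g) : Gr (fun x => f x * g x) := by
  obtain ⟨hfc, B, k, hB, hb⟩ := hf
  obtain ⟨hgc, D, l, hD, hd⟩ := hg
  refine ⟨hfc.mul hgc, B * D, k + l, mul_nonneg hB hD, fun x => ?_⟩
  rw [abs_mul, pow_add]
  calc |f x| * |g x| ≤ (B * (1 + ‖x‖) ^ k) * (D * (1 + ‖x‖) ^ l) :=
        mul_le_mul (hb x) (hd x) (abs_nonneg _) (mul_nonneg hB (pow_nonneg (by positivity) _))
    _ = _ := by ring

theorem Gr.neg {f : E n → ℝ} (hf : Gr f) : Gr (fun x => -f x) := by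
  obtain ⟨hfc, B, k, hB, hb⟩ := hf
  exact ⟨hfc.neg, B, k, hB, fun x => by rw [abs_neg]; exact hb x⟩

theorem Gr.sub {f g : E n → ℝ} (hf : Gr f) (hg : Gr g) : Gr (fun x => f x - g x) := by
  have h := hf.add hg.neg
  simpa [sub_eq_add_neg] using h

theorem Gr.const_mul {f : E n → ℝ} (hf : Gr f) (c : ℝ) : Gr (fun x => c * f x) :=
  (Gr.const c).mul hf

theorem Gr.pow {f : E n → ℝ} (hf : Gr f) (k : ℕ) : Gr (fun x => f x ^ k) := by
  induction k with
  | zero => simpa using Gr.const (n := n) 1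
  | succ k ih =>
    have h := ih.mul hf
    simpa [pow_succ] using h

theorem Gr.abs {f : E n → ℝ} (hf : Gr f) : Gr (fun x => |f x|) := by
  obtain ⟨hfc, B, k, hB, hb⟩ := hf
  exact ⟨hfc.abs, B, k, hB, fun x => by rw [abs_abs]; exact hb x⟩

theorem Gr.sum {ι : Type*} (s : Finset ι) {f : ι → E n → ℝ} (hf : ∀ i ∈ s, Gr (f i)) :
    Gr (fun x => ∑ i ∈ s, f i x) := by
  classical
  induction s using Finset.induction_on with
  | empty => simpa using Gr.const (n := n) 0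
  | insert a s ha ih =>
    have h := (hf a (Finset.mem_insert_self a s)).add
      (ih fun i hi => hf i (Finset.mem_insert_of_mem hi))
    simpa [Finset.sum_insert ha] using h

theorem Gr.of_test {f : E n → ℝ} (hf : Continuous f) (hs : HasCompactSupport f) : Gr f := by
  obtain ⟨B, hB⟩ := hf.bounded_above_of_compact_support hs
  exact Gr.of_bound hf hB

/-! ## Integrability against `exp (-V)` -/

theorem integrable_gauss {a : ℝ} (ha : 0 < a) :
    Integrable (fun x : E n => Real.exp (-a * ‖x‖ ^ 2)) := by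
  have h := GaussianFourier.integrable_cexp_neg_mul_sq_norm_add (V := E n) (b := (a : ℂ))
    (by simpa using ha) 0 0
  have h2 := h.norm
  refine h2.congr (Filter.Eventually.of_forall fun x => ?_)
  simp only [Complex.norm_exp]
  congr 1
  simp
  left
  norm_cast

theorem growth_le_exp {a : ℝ} (ha : 0 < a) (k : ℕ) :
    ∃ C : ℝ, 0 < C ∧ ∀ r : ℝ, 0 ≤ r → (1 + r) ^ k ≤ C * Real.exp (a * r ^ 2) := by
  refine ⟨k.factorial * Real.exp (1 + 1 / (4 * a)), by positivity, fun r hr => ?_⟩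
  have h1 : (1 + r) ^ k / k.factorial ≤ Real.exp (1 + r) :=
    Real.pow_div_factorial_le_exp (1 + r) (by linarith) k
  have h2 : (1 + r) ^ k ≤ k.factorial * Real.exp (1 + r) := by
    rw [div_le_iff₀ (by positivity)] at h1
    linarith
  have h3 : 1 + r ≤ 1 + 1 / (4 * a) + a * r ^ 2 := by
    have h4 : 0 ≤ a * (r - 1 / (2 * a)) ^ 2 := by positivity
    have h5 : a * (r - 1 / (2 * a)) ^ 2 = a * r ^ 2 - r + 1 / (4 * a) := by
      field_simp
      ring
    linarith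
  calc (1 + r) ^ k ≤ k.factorial * Real.exp (1 + r) := h2
    _ ≤ k.factorial * Real.exp (1 + 1 / (4 * a) + a * r ^ 2) := by gcongr
    _ = _ := by rw [Real.exp_add]; ring

namespace Reg

variable {V : E n → ℝ} {c C : ℝ}

theorem C2 (h : Reg V c C) : ContDiff ℝ 2 V := h.smooth.of_le (by norm_cast)

theorem cont (h : Reg V c C) : Continuous V := h.smooth.continuous

theorem quad_lower (h : Reg V c C) : ∃ A : ℝ, ∀ x, c / 4 * ‖x‖ ^ 2 - A ≤ V x := by
  refine ⟨-V 0 + ‖fderiv ℝ V 0‖ ^ 2 / c, fun x => ?_⟩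
  have h1 := lower_quad h.C2 h.lower x
  have h2 : -(‖fderiv ℝ V 0‖ * ‖x‖) ≤ fderiv ℝ V 0 x := by
    have := (fderiv ℝ V 0).le_opNorm x
    rw [Real.norm_eq_abs] at this
    linarith [neg_abs_le (fderiv ℝ V 0 x)]
  have hc := h.c_pos
  have h3 : ‖fderiv ℝ V 0‖ * ‖x‖ ≤ c / 4 * ‖x‖ ^ 2 + ‖fderiv ℝ V 0‖ ^ 2 / c := by
    have h4 : 0 ≤ (c / 2 * ‖x‖ - ‖fderiv ℝ V 0‖) ^ 2 / c := by positivity
    have h5 : (c / 2 * ‖x‖ - ‖fderiv ℝ V 0‖) ^ 2 / c
        = c / 4 * ‖x‖ ^ 2 - ‖fderiv ℝ V 0‖ * ‖x‖ + ‖fderiv ℝ V 0‖ ^ 2 / c := by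
      field_simp
      ring
    linarith
  nlinarith

theorem integrable_gr (h : Reg V c C) {f : E n → ℝ} (hf : Gr f) :
    Integrable (fun x => f x * Real.exp (-V x)) := by
  obtain ⟨hfc, B, k, hB, hb⟩ := hf
  obtain ⟨A, hA⟩ := h.quad_lower
  have hc := h.c_pos
  obtain ⟨D, hD, hd⟩ := growth_le_exp (a := c / 8) (by positivity) k
  have hi := (integrable_gauss (n := n) (a := c / 8) (by positivity)).const_mul
    (B * D * Real.exp A)
  refine hi.mono' ?_ (Filter.Eventually.of_forall fun x => ?_)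
  · exact (hfc.mul (Real.continuous_exp.comp h.cont.neg)).aestronglyMeasurable
  · rw [norm_mul, Real.norm_eq_abs, Real.norm_eq_abs, Real.abs_exp]
    have h1 := hb x
    have h2 := hd ‖x‖ (norm_nonneg x)
    have h3 : Real.exp (-V x) ≤ Real.exp A * Real.exp (-(c / 4) * ‖x‖ ^ 2) := by
      rw [← Real.exp_add]
      exact Real.exp_le_exp.2 (by have := hA x; linarith)
    calc |f x| * Real.exp (-V x)
        ≤ (B * (D * Real.exp (c / 8 * ‖x‖ ^ 2))) *
          (Real.exp A * Real.exp (-(c / 4) * ‖x‖ ^ 2)) :=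
          mul_le_mul (h1.trans (mul_le_mul_of_nonneg_left h2 hB)) h3 (Real.exp_pos _).le
            (by positivity)
      _ = B * D * Real.exp A * (Real.exp (c / 8 * ‖x‖ ^ 2) * Real.exp (-(c / 4) * ‖x‖ ^ 2)) := by
          ring
      _ = B * D * Real.exp A * Real.exp (-(c / 8) * ‖x‖ ^ 2) := by
          rw [← Real.exp_add]
          congr 2
          ring

theorem integrable_exp (h : Reg V c C) : Integrable (fun x => Real.exp (-V x)) := by
  simpa using h.integrable_gr (Gr.const 1)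

theorem Z_pos (h : Reg V c C) : 0 < ∫ x, Real.exp (-V x) := by
  rw [integral_pos_iff_support_of_nonneg (fun x => (Real.exp_pos _).le) h.integrable_exp]
  have : Function.support (fun x => Real.exp (-V x)) = Set.univ := by
    ext x
    simp [Real.exp_ne_zero]
  rw [this]
  exact isOpen_univ.measure_pos volume ⟨0, trivial⟩

theorem abs_hess (h : Reg V c C) : ∃ B, ∀ x i j, |hess V x i j| ≤ B := by
  obtain ⟨B, hB⟩ := h.bdd 2 le_rfl
  exact ⟨B, fun x i j => abs_hess_le h.C2 hB x i j⟩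

end Reg

/-- functions with bounded second derivative have gradients of polynomial growth -/
theorem gr_pd_of_bdd {f : E n → ℝ} (hf : ContDiff ℝ 2 f) {B : ℝ}
    (hB : ∀ x, ‖iteratedFDeriv ℝ 2 f x‖ ≤ B) (i : Fin n) : Gr (pd i f) := by
  have hB0 : 0 ≤ B := (norm_nonneg _).trans (hB 0)
  refine ⟨(contDiff_pd (k := 1) hf (by norm_num) i).continuous,
    ‖fderiv ℝ f 0‖ + B, 1, by positivity, fun x => ?_⟩
  have h1 := abs_pd_le_norm f x i
  have h2 := norm_fderiv_le hf hB x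
  have h3 := norm_nonneg x
  have h4 := norm_nonneg (fderiv ℝ f 0)
  rw [pow_one]
  nlinarith

theorem gr_hess_of_bdd {f : E n → ℝ} (hf : ContDiff ℝ 2 f) {B : ℝ}
    (hB : ∀ x, ‖iteratedFDeriv ℝ 2 f x‖ ≤ B) (i j : Fin n) : Gr (fun x => hess f x i j) :=
  Gr.of_bound (continuous_hess hf i j) fun x => abs_hess_le hf hB x i j

theorem gr_of_bdd {f : E n → ℝ} (hf : ContDiff ℝ 2 f) {B : ℝ}
    (hB : ∀ x, ‖iteratedFDeriv ℝ 2 f x‖ ≤ B) : Gr f := by
  have hB0 : 0 ≤ B := (norm_nonneg _).trans (hB 0)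
  have hd : Differentiable ℝ f := hf.differentiable (by norm_num)
  refine ⟨hf.continuous, |f 0| + (‖fderiv ℝ f 0‖ + B), 2, by positivity, fun x => ?_⟩
  have h2 := (convex_closedBall (0 : E n) ‖x‖).norm_image_sub_le_of_norm_fderiv_le
    (f := f) (C := ‖fderiv ℝ f 0‖ + B * ‖x‖) (x := 0) (y := x) (fun z _ => hd z)
    (fun z hz => by
      have := norm_fderiv_le hf hB z
      have hz' : ‖z‖ ≤ ‖x‖ := by simpa using hz
      nlinarith) (by simp) (by simp)
  rw [sub_zero, Real.norm_eq_abs] at h2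
  have h3 : |f x| ≤ |f 0| + |f x - f 0| := by
    calc |f x| = |f 0 + (f x - f 0)| := by rw [add_sub_cancel]
      _ ≤ _ := abs_add_le _ _
  have h4 := norm_nonneg x
  have h5 := norm_nonneg (fderiv ℝ f 0)
  have h6 := abs_nonneg (f 0)
  nlinarith [mul_nonneg h5 h4, mul_nonneg hB0 h4, mul_nonneg h6 h4, mul_nonneg h6 (mul_nonneg h4 h4),
    mul_nonneg h5 (mul_nonneg h4 h4), mul_nonneg hB0 (mul_nonneg h4 h4)]

theorem Reg.gr_pd {V : E n → ℝ} {c C : ℝ} (h : Reg V c C) (i : Fin n) : Gr (pd i V) := by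
  obtain ⟨B, hB⟩ := h.bdd 2 le_rfl
  exact gr_pd_of_bdd h.C2 hB i

theorem Reg.gr_hess {V : E n → ℝ} {c C : ℝ} (h : Reg V c C) (i j : Fin n) :
    Gr (fun x => hess V x i j) := by
  obtain ⟨B, hB⟩ := h.bdd 2 le_rfl
  exact gr_hess_of_bdd h.C2 hB i j

theorem Reg.gr {V : E n → ℝ} {c C : ℝ} (h : Reg V c C) : Gr V := by
  obtain ⟨B, hB⟩ := h.bdd 2 le_rfl
  exact gr_of_bdd h.C2 hB

theorem Piece.C2 {W : E n → ℝ} (h : Piece W) : ContDiff ℝ 2 W :=
  h.smooth.of_le (by norm_cast)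

theorem Piece.gr_pd {W : E n → ℝ} (h : Piece W) (i : Fin n) : Gr (pd i W) := by
  obtain ⟨B, hB⟩ := h.bdd 2 le_rfl
  exact gr_pd_of_bdd h.C2 hB i

theorem Piece.gr_hess {W : E n → ℝ} (h : Piece W) (i j : Fin n) : Gr (fun x => hess W x i j) := by
  obtain ⟨B, hB⟩ := h.bdd 2 le_rfl
  exact gr_hess_of_bdd h.C2 hB i j

theorem Piece.gr {W : E n → ℝ} (h : Piece W) : Gr W := by
  obtain ⟨B, hB⟩ := h.bdd 2 le_rfl
  exact gr_of_bdd h.C2 hB

end Vale.Agent.P227.M
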