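import Vale.Agent.P227.M.Defs

/-! # P227/M: the interface statements between the blocks.

SC (self-concordance) + LK (level k) + LIM (k → ∞)  ⟹ `StmtMM`
ID ⟹ `StmtStein`, `StmtIBP`, `StmtDiv`, `StmtKey`
LIN ⟹ `StmtLin`
LOC : `StmtStein → StmtIBP → StmtDiv → StmtKey → StmtLin → StmtMM → StmtLocal`
END : `StmtLocal →` Q1 (helper459's `End/Soft.lean`, `log_bm_of_soft`). -/

open MeasureTheory
open scoped Topology

namespace Vale.Agent.P227.M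

/-- block SC : log-Laplace transforms do not increase the self-concordance constant -/
def StmtSC : Prop := ∀ (n : ℕ) (W : E n → ℝ) (c C κ : ℝ), Reg W c C → 0 ≤ κ → κ ≤ 1 →
  SelfConc κ W → SelfConc κ (logLap W)

/-- blocks LK + LIM : existence of the `C^{2,1}` moment map potential (in `x`-space) -/
def StmtMM : Prop := ∀ (n : ℕ) (V : E n → ℝ) (c C : ℝ), Nice V c C → ∃ (ψ : E n → ℝ) (M : ℝ), MM ψ V c C M

/-- `s = τ ∇u` -/
noncomputable def fld {n : ℕ} (ψ u : E n → ℝ) (b : Fin n) (x : E n) : ℝ := ∑ c, tau ψ x b c * pd c u x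

/-- Stein : `E tr (D²W τ) = E ⟨∇W, x⟩` -/
def StmtStein : Prop := ∀ (n : ℕ) (ψ V : E n → ℝ) (c C M : ℝ), Nice V c C → MM ψ V c C M →
  ∀ W : E n → ℝ, Piece W →
    Ex V (fun x => (hess W x * tau ψ x).trace) = Ex V (fun x => ∑ i, x i * pd i W x)

/-- integration by parts : `E (-L u) f = E ⟨∇f, s⟩`, `f` smooth -/
def StmtIBP : Prop := ∀ (n : ℕ) (ψ V : E n → ℝ) (c C M : ℝ), Nice V c C → MM ψ V c C M →
  ∀ u f : E n → ℝ, Test u → ContDiff ℝ (⊤ : ℕ∞) f →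
    Ex V (fun x => -(Lop ψ u x) * f x) = Ex V (fun x => ∑ b, pd b f x * fld ψ u b x)

/-- `E ⟨∇W, τ ∇(LF+F)⟩ = - E tr (D²W τ D²F τ)` -/
def StmtDiv : Prop := ∀ (n : ℕ) (ψ V : E n → ℝ) (c C M : ℝ), Nice V c C → MM ψ V c C M →
  ∀ F W : E n → ℝ, Test F → ContDiff ℝ (⊤ : ℕ∞) W →
    Ex V (fun x => ∑ b, pd b W x * fld ψ (fun z => Lop ψ F z + F z) b x) =
      - Ex V (fun x => (hess W x * tau ψ x * hess F x * tau ψ x).trace)

/-- the key inequality (638's identity + Bochner), `h = LF + F + u` :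
`E tr (H τNτNτ) + E ⟨Hs,s⟩ ≤ E (Lu)² + 2 E ⟨∇h, τ L∇F⟩` -/
def StmtKey : Prop := ∀ (n : ℕ) (ψ V : E n → ℝ) (c C M : ℝ), Nice V c C → MM ψ V c C M →
  ∀ F u : E n → ℝ, Test F → Test u →
    Ex V (fun x => (hess V x * tau ψ x * hess F x * tau ψ x * hess F x * tau ψ x).trace)
      + Ex V (fun x => ∑ a, ∑ b, hess V x a b * fld ψ u a x * fld ψ u b x)
      ≤ Ex V (fun x => (Lop ψ u x) ^ 2)
        + 2 * Ex V (fun x => ∑ b, fld ψ (fun z => Lop ψ F z + F z + u z) b x * Lop ψ (pd b F) x)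

/-- block LIN : approximate solution of `-Lu = r`, `-(L+1)F = u` by test functions -/
def StmtLin : Prop := ∀ (n : ℕ) (ψ V : E n → ℝ) (c C M : ℝ), Nice V c C → MM ψ V c C M →
  ∀ r : E n → ℝ, Continuous r → (∀ x, r (-x) = r x) → (∃ B, ∀ x, |r x| ≤ B * (1 + ‖x‖ ^ 2)) → Ex V r = 0 →
  ∀ ε > 0, ∃ B : ℝ, ∀ δ > 0, ∃ F u : E n → ℝ, Test F ∧ Test u ∧
    Ex V (fun x => (Lop ψ u x + r x) ^ 2) ≤ ε ∧
    Ex V (fun x => ∑ b, (pd b (fun z => Lop ψ F z + F z + u z) x) ^ 2) ≤ δ ∧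
    Ex V (fun x => ∑ b, (Lop ψ (pd b F) x) ^ 2) ≤ B

/-- block LOC : the local (functional) log-Brunn-Minkowski inequality -/
def StmtLocal : Prop := ∀ (n : ℕ) (J : ℕ) (W : Fin J → E n → ℝ) (ρ : Fin J → ℝ) (c C : ℝ),
  (∀ j, Piece (W j)) → Nice (fun x => ∑ j, W j x) c C →
    Ex (fun x => ∑ j, W j x) (fun x => (∑ j, ρ j * ∑ i, x i * pd i (W j) x) ^ 2)
      - (Ex (fun x => ∑ j, W j x) (fun x => ∑ j, ρ j * ∑ i, x i * pd i (W j) x)) ^ 2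
      ≤ ∑ j, ρ j ^ 2 * Ex (fun x => ∑ j, W j x)
          (fun x => (∑ i, x i * pd i (W j) x) + qf (hess (W j) x) x)

end Vale.Agent.P227.M
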