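import Mathlib

open MeasureTheory Set Filter Real
open scoped Topology

namespace Vale.Agent.P227.M.SC1

theorem cut_anti {f : ℝ → ℝ} {u v : ℝ} (huv : u ≤ v) (hf : AntitoneOn f (Ioo u v)) :
    ∃ a, u ≤ a ∧ a ≤ v ∧ (∀ x, u < x → x < a → 0 ≤ f x) ∧ (∀ x, a < x → x < v → f x ≤ 0) := by
  set A : Set ℝ := {x | x ∈ Ioo u v ∧ 0 < f x} ∪ {u} with hA
  have hbdd : BddAbove A := by
    refine ⟨v, ?_⟩
    rintro x (⟨hx, -⟩ | rfl)
    · exact hx.2.le
    · exact huv
  have hne : A.Nonempty := ⟨u, Or.inr rfl⟩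
  refine ⟨sSup A, le_csSup hbdd (Or.inr rfl), csSup_le hne ?_, ?_, ?_⟩
  · rintro x (⟨hx, -⟩ | rfl)
    · exact hx.2.le
    · exact huv
  · intro x hux hxa
    obtain ⟨y, hy, hxy⟩ := exists_lt_of_lt_csSup hne hxa
    rcases hy with ⟨hy, hfy⟩ | rfl
    · have : f y ≤ f x := hf ⟨hux, hxy.trans hy.2⟩ hy hxy.le
      linarith
    · exact absurd hxy (not_lt.2 hux.le)
  · intro x hax hxv
    by_contra hcon
    push Not at hcon
    have hux : u < x := lt_of_le_of_lt (le_csSup hbdd (Or.inr rfl)) hax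
    have : x ∈ A := Or.inl ⟨⟨hux, hxv⟩, hcon⟩
    exact absurd (le_csSup hbdd this) (not_le.2 hax)

theorem cut_mono {f : ℝ → ℝ} {u v : ℝ} (huv : u ≤ v) (hf : MonotoneOn f (Ioo u v)) :
    ∃ a, u ≤ a ∧ a ≤ v ∧ (∀ x, u < x → x < a → f x ≤ 0) ∧ (∀ x, a < x → x < v → 0 ≤ f x) := by
  obtain ⟨a, h1, h2, h3, h4⟩ := cut_anti (f := fun x => - f x) huv (fun x hx y hy hxy =>
    neg_le_neg (hf hx hy hxy))
  refine ⟨a, h1, h2, fun x hx hxa => ?_, fun x hx hxv => ?_⟩
  · have := h3 x hx hxa; linarith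
  · have := h4 x hx hxv; linarith

/-- Cut on a half line, for a function which is nonpositive far away. -/
theorem cut_anti' {f : ℝ → ℝ} {u V : ℝ} (hf : AntitoneOn f (Ioi u)) (hV : ∀ x, V ≤ x → f x ≤ 0) :
    ∃ a, u ≤ a ∧ (∀ x, u < x → x < a → 0 ≤ f x) ∧ (∀ x, a < x → f x ≤ 0) := by
  obtain ⟨a, h1, h2, h3, h4⟩ := cut_anti (f := f) (le_max_left u V)
    (hf.mono Ioo_subset_Ioi_self)
  refine ⟨a, h1, h3, fun x hx => ?_⟩
  rcases lt_or_ge x (max u V) with h | h
  · exact h4 x hx h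
  · exact hV x ((le_max_right _ _).trans h)

/-- The sign pattern of the difference of the logarithms. -/
theorem pattern {U U1 U2 : ℝ → ℝ} {c0 c k β LA : ℝ} (hU1 : ∀ x, HasDerivAt U (U1 x) x)
    (hU2 : ∀ x, HasDerivAt U1 (U2 x) x) (hc0 : 0 < c0) (h0 : ∀ x, c0 ≤ U2 x) (hc : 0 < c)
    (hk : k = 1 / c ^ 2)
    (hL : ∀ x y, |(√(U2 x))⁻¹ - (√(U2 y))⁻¹| ≤ c * |x - y|) :
    ∃ a b d s t : ℝ, 0 ≤ a ∧ a ≤ s ∧ s ≤ b ∧ b ≤ t ∧ t ≤ d ∧
      (∀ x, 0 < x → x < a → 0 ≤ -U x - (LA + k * log x - β * x)) ∧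
      (∀ x, a < x → x < s → -U x - (LA + k * log x - β * x) ≤ 0) ∧
      (∀ x, s < x → x < b → -U x - (LA + k * log x - β * x) ≤ 0) ∧
      (∀ x, b < x → x < t → 0 ≤ -U x - (LA + k * log x - β * x)) ∧
      (∀ x, t < x → x < d → 0 ≤ -U x - (LA + k * log x - β * x)) ∧
      (∀ x, d < x → -U x - (LA + k * log x - β * x) ≤ 0) := by
  have hU2pos : ∀ x, 0 < U2 x := fun x => hc0.trans_le (h0 x)
  have hkpos : 0 < k := by rw [hk]; positivity
  set l : ℝ → ℝ := fun x => -U x - (LA + k * log x - β * x) with hl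
  set l1 : ℝ → ℝ := fun x => -U1 x - k / x + β with hl1
  have hdl : ∀ x, 0 < x → HasDerivAt l (l1 x) x := by
    intro x hx
    have h1 := (hU1 x).neg
    have h2 := ((hasDerivAt_log hx.ne').const_mul k).const_add LA
    have h3 := (hasDerivAt_id x).const_mul β
    have h4 := h1.sub (h2.sub h3)
    have e : l1 x = -U1 x - (k * x⁻¹ - β * 1) := by
      simp only [hl1]; ring
    rw [e]
    exact h4
  have hdl1 : ∀ x, 0 < x → HasDerivAt l1 (-U2 x + k / x ^ 2) x := by
    intro x hx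
    have h1 := (hU2 x).neg
    have h2 := (hasDerivAt_inv hx.ne').const_mul k
    have h3 := (h1.sub h2).add_const β
    have e : -U2 x + k / x ^ 2 = -U2 x - k * (-(x ^ 2)⁻¹) := by ring
    rw [e]
    refine h3.congr_of_eventuallyEq (Eventually.of_forall fun y => ?_)
    simp only [hl1, Pi.sub_apply, Pi.neg_apply, div_eq_mul_inv]
  -- the function D
  have hDanti : Antitone (fun x => (√(U2 x))⁻¹ - c * x) := by
    intro x y hxy
    have h1 := hL x y
    rw [abs_sub_comm x y, abs_of_nonneg (sub_nonneg.2 hxy), abs_sub_comm] at h1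
    have h2 := le_abs_self ((√(U2 y))⁻¹ - (√(U2 x))⁻¹)
    simp only
    linarith
  have hsqrt : ∀ x, (√(U2 x))⁻¹ ≤ (√c0)⁻¹ := fun x =>
    inv_anti₀ (Real.sqrt_pos.2 hc0) (Real.sqrt_le_sqrt (h0 x))
  obtain ⟨x1, hx10, hx1a, hx1b⟩ := cut_anti' (f := fun x => (√(U2 x))⁻¹ - c * x) (u := 0)
    (V := (√c0)⁻¹ / c) (hDanti.antitoneOn _) (by
      intro x hx
      rw [div_le_iff₀ hc] at hx
      have := hsqrt x
      linarith)
  -- signs of the second derivative
  have hsec : ∀ x, 0 < x → (0 ≤ (√(U2 x))⁻¹ - c * x ↔ 0 ≤ -U2 x + k / x ^ 2) := by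
    intro x hx
    have e1 : 0 ≤ (√(U2 x))⁻¹ - c * x ↔ c * x * √(U2 x) ≤ 1 := by
      rw [sub_nonneg, ← one_div, le_div_iff₀ (Real.sqrt_pos.2 (hU2pos x))]
    have e2 : c * x * √(U2 x) ≤ 1 ↔ (c * x) ^ 2 * U2 x ≤ 1 := by
      rw [← Real.sq_sqrt (hU2pos x).le, ← mul_pow, sq_sqrt (hU2pos x).le]
      rw [sq_le_one_iff₀ (by positivity)]
    have e3 : 0 ≤ -U2 x + k / x ^ 2 ↔ (c * x) ^ 2 * U2 x ≤ 1 := by
      rw [hk, neg_add_eq_sub, sub_nonneg, div_div, le_div_iff₀ (by positivity)]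
      constructor <;> intro h <;> nlinarith
    rw [e1, e2, e3]
  have hsec' : ∀ x, 0 < x → (√(U2 x))⁻¹ - c * x ≤ 0 → -U2 x + k / x ^ 2 ≤ 0 := by
    intro x hx h
    have hsp := Real.sqrt_pos.2 (hU2pos x)
    have h1 : 1 ≤ c * x * √(U2 x) := by
      have h2 : (√(U2 x))⁻¹ ≤ c * x := by linarith
      rwa [← one_div, div_le_iff₀ hsp] at h2
    have h3 : 1 ≤ (c * x) ^ 2 * U2 x := by
      have h4 : (c * x * √(U2 x)) ^ 2 = (c * x) ^ 2 * U2 x := by
        rw [mul_pow, Real.sq_sqrt (hU2pos x).le]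
      rw [← h4]
      exact one_le_pow₀ h1
    have h5 : k / x ^ 2 ≤ U2 x := by
      rw [hk, div_div, div_le_iff₀ (by positivity)]
      nlinarith
    linarith
  -- monotonicity of l1
  have hmono1 : MonotoneOn l1 (Ioc 0 x1) := by
    apply monotoneOn_of_deriv_nonneg (convex_Ioc 0 x1)
    · intro x hx
      exact (hdl1 x hx.1).continuousAt.continuousWithinAt
    · intro x hx
      rw [interior_Ioc] at hx
      exact (hdl1 x hx.1).differentiableAt.differentiableWithinAt
    · intro x hx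
      rw [interior_Ioc] at hx
      rw [(hdl1 x hx.1).deriv]
      exact (hsec x hx.1).1 (hx1a x hx.1 hx.2)
  have hanti1 : AntitoneOn l1 (Ioi x1) := by
    apply antitoneOn_of_deriv_nonpos (convex_Ioi x1)
    · intro x hx
      exact (hdl1 x (hx10.trans_lt hx)).continuousAt.continuousWithinAt
    · intro x hx
      rw [interior_Ioi] at hx
      exact (hdl1 x (hx10.trans_lt hx)).differentiableAt.differentiableWithinAt
    · intro x hx
      rw [interior_Ioi] at hx
      rw [(hdl1 x (hx10.trans_lt hx)).deriv]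
      exact hsec' x (hx10.trans_lt hx) (hx1b x hx)
  -- growth of U1 and U
  have hg1 : ∀ x, 0 ≤ x → U1 0 + c0 * x ≤ U1 x := by
    intro x hx
    have hm : MonotoneOn (fun y => U1 y - c0 * y) (Ici 0) := by
      apply monotoneOn_of_deriv_nonneg (convex_Ici 0)
      · intro y _
        exact ((hU2 y).sub ((hasDerivAt_id y).const_mul c0)).continuousAt.continuousWithinAt
      · intro y _
        exact ((hU2 y).sub ((hasDerivAt_id y).const_mul c0)).differentiableAt.differentiableWithinAt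
      · intro y _
        have h1 : HasDerivAt (fun y => U1 y - c0 * y) (U2 y - c0 * 1) y :=
          (hU2 y).sub ((hasDerivAt_id y).const_mul c0)
        rw [h1.deriv]
        have := h0 y
        linarith
    have := hm (mem_Ici.2 le_rfl) (mem_Ici.2 hx) hx
    simp only at this
    linarith
  have hg0 : ∀ x, 0 ≤ x → U 0 + U1 0 * x + c0 / 2 * x ^ 2 ≤ U x := by
    intro x hx
    have hm : MonotoneOn (fun y => U y - (U1 0 * y + c0 / 2 * y ^ 2)) (Ici 0) := by
      have hd : ∀ y, HasDerivAt (fun y => U y - (U1 0 * y + c0 / 2 * y ^ 2))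
          (U1 y - (U1 0 * 1 + c0 / 2 * (2 * y ^ (2 - 1) * 1))) y := by
        intro y
        exact (hU1 y).sub (((hasDerivAt_id y).const_mul (U1 0)).add
          (((hasDerivAt_id y).pow 2).const_mul (c0 / 2)))
      apply monotoneOn_of_deriv_nonneg (convex_Ici 0)
      · intro y _
        exact (hd y).continuousAt.continuousWithinAt
      · intro y _
        exact (hd y).differentiableAt.differentiableWithinAt
      · intro y hy
        rw [interior_Ici] at hy
        rw [(hd y).deriv]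
        have := hg1 y (le_of_lt hy)
        simp only [Nat.add_one_sub_one, pow_one]
        linarith
    have := hm (mem_Ici.2 le_rfl) (mem_Ici.2 hx) hx
    simp only at this
    nlinarith
  -- s and t
  obtain ⟨s, hs0, hsx1, hsa, hsb⟩ := cut_mono (f := l1) hx10 (hmono1.mono Ioo_subset_Ioc_self)
  obtain ⟨t, htx1, hta, htb⟩ := cut_anti' (f := l1) (u := x1) (V := max 1 ((β - U1 0) / c0))
    hanti1 (by
      intro x hx
      have hx1 : 1 ≤ x := (le_max_left _ _).trans hx
      have hx2 : (β - U1 0) / c0 ≤ x := (le_max_right _ _).trans hx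
      rw [div_le_iff₀ hc0] at hx2
      have h1 := hg1 x (by linarith)
      have h2 : 0 ≤ k / x := by positivity
      simp only [hl1]
      linarith)
  have hst : s ≤ t := hsx1.trans htx1
  have hpos1 : ∀ x, s < x → x < t → 0 ≤ l1 x := by
    intro x hsx hxt
    rcases lt_trichotomy x x1 with h | h | h
    · exact hsb x hsx h
    · subst h
      have hm1 : s < (s + x) / 2 := by linarith
      have hm2 : (s + x) / 2 < x := by linarith
      have h1 := hsb _ hm1 hm2
      have h2 := hmono1 (show (s + x) / 2 ∈ Ioc 0 x from ⟨by linarith, hm2.le⟩)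
        (show x ∈ Ioc 0 x from ⟨by linarith, le_rfl⟩) hm2.le
      linarith
    · exact hta x h hxt
  -- monotonicity of l
  have hl_a : AntitoneOn l (Ioo 0 s) := by
    apply antitoneOn_of_deriv_nonpos (convex_Ioo 0 s)
    · intro x hx
      exact (hdl x hx.1).continuousAt.continuousWithinAt
    · intro x hx
      rw [interior_Ioo] at hx
      exact (hdl x hx.1).differentiableAt.differentiableWithinAt
    · intro x hx
      rw [interior_Ioo] at hx
      rw [(hdl x hx.1).deriv]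
      exact hsa x hx.1 hx.2
  have hl_b : MonotoneOn l (Ioo s t) := by
    apply monotoneOn_of_deriv_nonneg (convex_Ioo s t)
    · intro x hx
      exact (hdl x (hs0.trans_lt hx.1)).continuousAt.continuousWithinAt
    · intro x hx
      rw [interior_Ioo] at hx
      exact (hdl x (hs0.trans_lt hx.1)).differentiableAt.differentiableWithinAt
    · intro x hx
      rw [interior_Ioo] at hx
      rw [(hdl x (hs0.trans_lt hx.1)).deriv]
      exact hpos1 x hx.1 hx.2
  have ht0 : 0 ≤ t := hs0.trans hst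
  have hl_c : AntitoneOn l (Ioi t) := by
    apply antitoneOn_of_deriv_nonpos (convex_Ioi t)
    · intro x hx
      exact (hdl x (ht0.trans_lt hx)).continuousAt.continuousWithinAt
    · intro x hx
      rw [interior_Ioi] at hx
      exact (hdl x (ht0.trans_lt hx)).differentiableAt.differentiableWithinAt
    · intro x hx
      rw [interior_Ioi] at hx
      rw [(hdl x (ht0.trans_lt hx)).deriv]
      exact htb x hx
  obtain ⟨a, ha0, has, haa, hab⟩ := cut_anti hs0 hl_a
  obtain ⟨b, hsb', hbt, hba, hbb⟩ := cut_mono hst hl_b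
  obtain ⟨d, htd, hda, hdb⟩ := cut_anti' (f := l) (u := t)
    (V := max 1 (2 * (|β - U1 0| + |U 0 + LA|) / c0)) hl_c (by
      intro x hx
      have hx1 : 1 ≤ x := (le_max_left _ _).trans hx
      have hx2 : 2 * (|β - U1 0| + |U 0 + LA|) / c0 ≤ x := (le_max_right _ _).trans hx
      rw [div_le_iff₀ hc0] at hx2
      have h1 := hg0 x (by linarith)
      have h2 : 0 ≤ k * log x := mul_nonneg hkpos.le (log_nonneg hx1)
      have h3 := le_abs_self (β - U1 0)
      have h4 := neg_abs_le (U 0 + LA)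
      have h5 : 0 ≤ |U 0 + LA| := abs_nonneg _
      simp only [hl]
      nlinarith [mul_le_mul_of_nonneg_right h3 (by linarith : (0:ℝ) ≤ x),
        mul_le_mul_of_nonneg_right hx2 (by linarith : (0:ℝ) ≤ x),
        mul_nonneg h5 (by linarith : (0:ℝ) ≤ x - 1)])
  exact ⟨a, b, d, s, t, ha0, has, hsb', hbt, htd, haa, hab, hba, hbb, hda, hdb⟩

/-! ### Gamma densities -/

/-- The Gamma density of shape `k+1` and rate `β`. -/
noncomputable def q (k β : ℝ) : ℝ → ℝ :=
  (Ioi (0 : ℝ)).indicator fun x => exp (log (((1 / β) ^ (k + 1) * Gamma (k + 1))⁻¹) + k * log x - β * x)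

theorem q_eq {k β : ℝ} (hk : 0 < k) (hβ : 0 < β) {x : ℝ} (hx : 0 < x) :
    q k β x = ((1 / β) ^ (k + 1) * Gamma (k + 1))⁻¹ * (x ^ k * exp (-β * x)) := by
  have hG : 0 < (1 / β) ^ (k + 1) * Gamma (k + 1) :=
    mul_pos (rpow_pos_of_pos (by positivity) _) (Gamma_pos_of_pos (by linarith))
  unfold q
  rw [indicator_of_mem (show x ∈ Ioi (0 : ℝ) from hx)]
  rw [show log (((1 / β) ^ (k + 1) * Gamma (k + 1))⁻¹) + k * log x - β * x =
    log (((1 / β) ^ (k + 1) * Gamma (k + 1))⁻¹) + (log x * k + (-β * x)) by ring]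
  rw [exp_add, exp_log (inv_pos.2 hG), exp_add, ← rpow_def_of_pos hx]

theorem q_int {k β : ℝ} (hk : 0 < k) (hβ : 0 < β) (j : ℕ) :
    Integrable (fun x => x ^ j * q k β x) ∧
    ∫ x, x ^ j * q k β x = (1 / β) ^ j * (Gamma (k + 1 + j) / Gamma (k + 1)) := by
  have hG : 0 < (1 / β) ^ (k + 1) * Gamma (k + 1) :=
    mul_pos (rpow_pos_of_pos (by positivity) _) (Gamma_pos_of_pos (by linarith))
  set A := ((1 / β) ^ (k + 1) * Gamma (k + 1))⁻¹ with hA
  have h1 : (fun x => x ^ j * q k β x) =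
      (Ioi (0 : ℝ)).indicator (fun x => A * (x ^ (k + j) * exp (-β * x ^ (1 : ℝ)))) := by
    funext x
    by_cases hx : 0 < x
    · rw [indicator_of_mem (show x ∈ Ioi (0 : ℝ) from hx), q_eq hk hβ hx, rpow_add hx,
        rpow_natCast, rpow_one]
      ring
    · rw [indicator_of_notMem (show x ∉ Ioi (0 : ℝ) from hx)]
      unfold q
      rw [indicator_of_notMem (show x ∉ Ioi (0 : ℝ) from hx), mul_zero]
  have h2 : IntegrableOn (fun x : ℝ => x ^ (k + j) * exp (-β * x ^ (1 : ℝ))) (Ioi 0) :=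
    integrableOn_rpow_mul_exp_neg_mul_rpow (by have : (0:ℝ) ≤ j := Nat.cast_nonneg j; linarith) one_pos hβ
  constructor
  · rw [h1, integrable_indicator_iff measurableSet_Ioi]
    exact h2.const_mul A
  · rw [h1, integral_indicator measurableSet_Ioi, integral_const_mul]
    have h3 : ∫ x in Ioi (0 : ℝ), x ^ (k + j) * exp (-β * x ^ (1 : ℝ)) =
        (1 / β) ^ (k + 1 + j) * Gamma (k + 1 + j) := by
      rw [← integral_rpow_mul_exp_neg_mul_Ioi (by positivity) hβ]
      refine setIntegral_congr_fun measurableSet_Ioi fun x hx => ?_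
      simp only [rpow_one]
      congr 2 <;> ring
    rw [h3, rpow_add (by positivity), rpow_natCast, hA]
    have h4 : (1 / β) ^ (k + 1) ≠ 0 := (rpow_pos_of_pos (by positivity) _).ne'
    have h5 : Gamma (k + 1) ≠ 0 := (Gamma_pos_of_pos (by linarith)).ne'
    field_simp

theorem q_nonneg (k β x : ℝ) : 0 ≤ q k β x := by
  unfold q
  exact indicator_nonneg (fun x _ => (exp_pos _).le) x

theorem gam1 {a : ℝ} (ha : 0 < a) : Gamma (a + (1 : ℕ)) / Gamma a = a := by
  have h5 : Gamma a ≠ 0 := (Gamma_pos_of_pos ha).ne'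
  rw [Nat.cast_one, Gamma_add_one ha.ne']
  field_simp

theorem gam2 {a : ℝ} (ha : 0 < a) : Gamma (a + (2 : ℕ)) / Gamma a = (a + 1) * a := by
  have h5 : Gamma a ≠ 0 := (Gamma_pos_of_pos ha).ne'
  rw [show a + ((2 : ℕ) : ℝ) = (a + 1) + 1 by push_cast; ring, Gamma_add_one (by positivity),
    Gamma_add_one ha.ne']
  field_simp

theorem gam3 {a : ℝ} (ha : 0 < a) : Gamma (a + (3 : ℕ)) / Gamma a = (a + 2) * (a + 1) * a := by
  have h5 : Gamma a ≠ 0 := (Gamma_pos_of_pos ha).ne'
  rw [show a + ((3 : ℕ) : ℝ) = ((a + 1) + 1) + 1 by push_cast; ring, Gamma_add_one (by positivity),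
    Gamma_add_one (by positivity), Gamma_add_one ha.ne']
  field_simp
  ring

/-! ### Integrability -/

theorem growth {U U1 U2 : ℝ → ℝ} {c0 : ℝ} (hU1 : ∀ x, HasDerivAt U (U1 x) x)
    (hU2 : ∀ x, HasDerivAt U1 (U2 x) x) (h0 : ∀ x, c0 ≤ U2 x) (x : ℝ) :
    U 0 + U1 0 * x + c0 / 2 * x ^ 2 ≤ U x := by
  have hconv : ConvexOn ℝ univ (fun y => U y - (c0 / 2 * y ^ 2)) := by
    have hd : ∀ y, HasDerivAt (fun y => U y - (c0 / 2 * y ^ 2)) (U1 y - c0 * y) y := by
      intro y
      have h1 := (hU1 y).sub (((hasDerivAt_id y).pow 2).const_mul (c0 / 2))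
      refine h1.congr_deriv ?_
      simp
      ring
    have hd2 : ∀ y, HasDerivAt (fun y => U1 y - c0 * y) (U2 y - c0) y := by
      intro y
      have h1 := (hU2 y).sub ((hasDerivAt_id y).const_mul c0)
      refine h1.congr_deriv ?_
      simp
    apply convexOn_of_hasDerivWithinAt2_nonneg (f' := fun y => U1 y - c0 * y)
      (f'' := fun y => U2 y - c0) convex_univ
    · exact fun y _ => (hd y).continuousAt.continuousWithinAt
    · intro y _
      exact (hd y).hasDerivWithinAt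
    · intro y _
      exact (hd2 y).hasDerivWithinAt
    · intro y _
      have := h0 y
      linarith
  have hd0 : HasDerivAt (fun y => U y - (c0 / 2 * y ^ 2)) (U1 0) 0 := by
    have h1 := (hU1 0).sub (((hasDerivAt_id (0:ℝ)).pow 2).const_mul (c0 / 2))
    refine h1.congr_deriv ?_
    simp
  have key : (fun y => U y - (c0 / 2 * y ^ 2)) 0 + U1 0 * x ≤ (fun y => U y - (c0 / 2 * y ^ 2)) x := by
    rcases lt_trichotomy x 0 with hx | hx | hx
    · have h2 := hconv.slope_le_of_hasDerivAt (mem_univ x) (mem_univ 0) hx hd0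
      rw [slope_def_field, div_le_iff₀ (by linarith)] at h2
      simp only at h2 ⊢
      linarith
    · subst hx; simp
    · have h2 := hconv.le_slope_of_hasDerivAt (mem_univ 0) (mem_univ x) hx hd0
      rw [slope_def_field, le_div_iff₀ (by linarith)] at h2
      simp only at h2 ⊢
      linarith
  simp only at key
  nlinarith

theorem integrable_pow_mul {U : ℝ → ℝ} (hU : Continuous U) {A B c0 : ℝ} (hc0 : 0 < c0)
    (h : ∀ x, A + B * x + c0 / 2 * x ^ 2 ≤ U x) (j : ℕ) :
    Integrable (fun x => x ^ j * exp (-U x)) := by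
  have hg : Integrable (fun x : ℝ => (j.factorial : ℝ) * (exp (-A) * exp ((1 + |B|) ^ 2 / c0)) *
      exp (-(c0 / 4) * x ^ 2)) := (integrable_exp_neg_mul_sq (by positivity)).const_mul _
  refine hg.mono' (by fun_prop) (Eventually.of_forall fun x => ?_)
  rw [norm_mul, norm_pow, Real.norm_eq_abs, Real.norm_eq_abs, abs_of_pos (exp_pos _)]
  have h1 : |x| ^ j ≤ (j.factorial : ℝ) * exp |x| := by
    have := Real.pow_div_factorial_le_exp |x| (abs_nonneg x) j
    rwa [div_le_iff₀ (by positivity), mul_comm] at this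
  have h2 : exp |x| * exp (-U x) ≤ exp (-A) * exp ((1 + |B|) ^ 2 / c0) * exp (-(c0 / 4) * x ^ 2) := by
    rw [← exp_add, ← exp_add, ← exp_add]
    apply exp_le_exp.2
    have h3 := h x
    have h4 : -(|B| * |x|) ≤ B * x := by
      rw [← abs_mul]; exact neg_abs_le _
    have h5 : (1 + |B|) * |x| ≤ (1 + |B|) ^ 2 / c0 + c0 / 4 * x ^ 2 := by
      have h6 : 0 ≤ ((1 + |B|) / √c0 - √c0 / 2 * |x|) ^ 2 := sq_nonneg _
      have h7 : ((1 + |B|) / √c0 - √c0 / 2 * |x|) ^ 2 =
          (1 + |B|) ^ 2 / c0 + c0 / 4 * x ^ 2 - (1 + |B|) * |x| := by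
        have h8 : √c0 ≠ 0 := (Real.sqrt_pos.2 hc0).ne'
        rw [sub_sq, div_pow, Real.sq_sqrt hc0.le, mul_pow, div_pow, Real.sq_sqrt hc0.le, sq_abs]
        field_simp
        ring
      linarith
    linarith
  calc |x| ^ j * exp (-U x) ≤ ((j.factorial : ℝ) * exp |x|) * exp (-U x) :=
        mul_le_mul_of_nonneg_right h1 (exp_pos _).le
    _ = (j.factorial : ℝ) * (exp |x| * exp (-U x)) := by ring
    _ ≤ (j.factorial : ℝ) * (exp (-A) * exp ((1 + |B|) ^ 2 / c0) * exp (-(c0 / 4) * x ^ 2)) :=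
        mul_le_mul_of_nonneg_left h2 (by positivity)
    _ = _ := by ring

/-! ### The comparison -/

theorem int_comb {f0 f1 f2 f3 : ℝ → ℝ} (h0 : Integrable f0) (h1 : Integrable f1)
    (h2 : Integrable f2) (h3 : Integrable f3) (A B C : ℝ) :
    ∫ x, (f3 x - A * f2 x + B * f1 x - C * f0 x) =
      (∫ x, f3 x) - A * (∫ x, f2 x) + B * (∫ x, f1 x) - C * ∫ x, f0 x := by
  have i2 := h2.const_mul A
  have i1 := h1.const_mul B
  have i0 := h0.const_mul C
  have j1 : Integrable (fun x => f3 x - A * f2 x) := h3.sub i2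
  have j2 : Integrable (fun x => f3 x - A * f2 x + B * f1 x) := j1.add i1
  rw [integral_sub j2 i0, integral_add j1 i1, integral_sub h3 i2, integral_const_mul,
    integral_const_mul, integral_const_mul]

/-- Normalised form, the gamma law of shape `k+1` and rate `β` having the same mass, first and
second moment. -/
theorem core {U U1 U2 : ℝ → ℝ} {c0 c k β : ℝ} (hU1 : ∀ x, HasDerivAt U (U1 x) x)
    (hU2 : ∀ x, HasDerivAt U1 (U2 x) x) (hc0 : 0 < c0) (h0 : ∀ x, c0 ≤ U2 x) (hc : 0 < c)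
    (hk : k = 1 / c ^ 2) (hβ : 0 < β)
    (hL : ∀ x y, |(√(U2 x))⁻¹ - (√(U2 y))⁻¹| ≤ c * |x - y|)
    (hm0 : ∫ x, exp (-U x) = 1) (hm1 : ∫ x, x * exp (-U x) = (k + 1) / β)
    (hm2 : ∫ x, x ^ 2 * exp (-U x) = (k + 2) * (k + 1) / β ^ 2) :
    ∫ x, x ^ 3 * exp (-U x) ≤ (k + 3) * (k + 2) * (k + 1) / β ^ 3 := by
  have hkpos : 0 < k := by rw [hk]; positivity
  have hUc : Continuous U := continuous_iff_continuousAt.2 fun x => (hU1 x).continuousAt
  have hp := integrable_pow_mul hUc hc0 (growth hU1 hU2 h0)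
  have hq := q_int hkpos hβ
  obtain ⟨a, b, d, s, t, ha0, has, hsb, hbt, htd, p1, p2, p3, p4, p5, p6⟩ :=
    pattern (LA := log (((1 / β) ^ (k + 1) * Gamma (k + 1))⁻¹)) (β := β) hU1 hU2 hc0 h0 hc hk hL
  have hqx : ∀ x, 0 < x → q k β x =
      exp (log (((1 / β) ^ (k + 1) * Gamma (k + 1))⁻¹) + k * log x - β * x) := by
    intro x hx
    unfold q
    rw [indicator_of_mem (show x ∈ Ioi (0 : ℝ) from hx)]
  have hqx0 : ∀ x, x ≤ 0 → q k β x = 0 := by
    intro x hx
    unfold q
    rw [indicator_of_notMem (show x ∉ Ioi (0 : ℝ) from not_lt.2 hx)]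
  have hpos : ∀ x, 0 < x →
      0 ≤ -U x - (log (((1 / β) ^ (k + 1) * Gamma (k + 1))⁻¹) + k * log x - β * x) →
      0 ≤ exp (-U x) - q k β x := by
    intro x hx h
    rw [hqx x hx, sub_nonneg]
    exact exp_le_exp.2 (by linarith)
  have hneg : ∀ x, 0 < x →
      -U x - (log (((1 / β) ^ (k + 1) * Gamma (k + 1))⁻¹) + k * log x - β * x) ≤ 0 →
      exp (-U x) - q k β x ≤ 0 := by
    intro x hx h
    rw [hqx x hx, sub_nonpos]
    exact exp_le_exp.2 (by linarith)
  -- pointwise sign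
  have hsign : ∀ x, x ∉ ({0, s, t, a, b, d} : Set ℝ) →
      (x - a) * (x - b) * (x - d) * (exp (-U x) - q k β x) ≤ 0 := by
    intro x hx
    simp only [mem_insert_iff, mem_singleton_iff, not_or] at hx
    obtain ⟨n0, ns, nt, na, nb, nd⟩ := hx
    rcases lt_or_gt_of_ne n0 with h | h
    · -- x < 0
      rw [hqx0 x h.le, sub_zero]
      have e1 : 0 < (x - a) * (x - b) := mul_pos_of_neg_of_neg (by linarith) (by linarith)
      have e2 : (x - a) * (x - b) * (x - d) < 0 := mul_neg_of_pos_of_neg e1 (by linarith)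
      exact (mul_neg_of_neg_of_pos e2 (exp_pos _)).le
    rcases lt_or_gt_of_ne na with ha | ha
    · have e0 := hpos x h (p1 x h ha)
      have e1 : 0 < (x - a) * (x - b) := mul_pos_of_neg_of_neg (by linarith) (by linarith)
      have e2 : (x - a) * (x - b) * (x - d) < 0 := mul_neg_of_pos_of_neg e1 (by linarith)
      exact mul_nonpos_of_nonpos_of_nonneg e2.le e0
    rcases lt_or_gt_of_ne ns with hs | hs
    · have e0 := hneg x h (p2 x ha hs)
      have e1 : (x - a) * (x - b) < 0 := mul_neg_of_pos_of_neg (by linarith) (by linarith)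
      have e2 : 0 < (x - a) * (x - b) * (x - d) := mul_pos_of_neg_of_neg e1 (by linarith)
      exact mul_nonpos_of_nonneg_of_nonpos e2.le e0
    rcases lt_or_gt_of_ne nb with hb | hb
    · have e0 := hneg x h (p3 x hs hb)
      have e1 : (x - a) * (x - b) < 0 := mul_neg_of_pos_of_neg (by linarith) (by linarith)
      have e2 : 0 < (x - a) * (x - b) * (x - d) := mul_pos_of_neg_of_neg e1 (by linarith)
      exact mul_nonpos_of_nonneg_of_nonpos e2.le e0
    rcases lt_or_gt_of_ne nt with ht | ht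
    · have e0 := hpos x h (p4 x hb ht)
      have e1 : 0 < (x - a) * (x - b) := mul_pos (by linarith) (by linarith)
      have e2 : (x - a) * (x - b) * (x - d) < 0 := mul_neg_of_pos_of_neg e1 (by linarith)
      exact mul_nonpos_of_nonpos_of_nonneg e2.le e0
    rcases lt_or_gt_of_ne nd with hd | hd
    · have e0 := hpos x h (p5 x ht hd)
      have e1 : 0 < (x - a) * (x - b) := mul_pos (by linarith) (by linarith)
      have e2 : (x - a) * (x - b) * (x - d) < 0 := mul_neg_of_pos_of_neg e1 (by linarith)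
      exact mul_nonpos_of_nonpos_of_nonneg e2.le e0
    · have e0 := hneg x h (p6 x hd)
      have e1 : 0 < (x - a) * (x - b) := mul_pos (by linarith) (by linarith)
      have e2 : 0 < (x - a) * (x - b) * (x - d) := mul_pos e1 (by linarith)
      exact mul_nonpos_of_nonneg_of_nonpos e2.le e0
  have hae : ∀ᵐ x : ℝ, (x - a) * (x - b) * (x - d) * (exp (-U x) - q k β x) ≤ 0 := by
    have hfin : ({0, s, t, a, b, d} : Set ℝ).Countable :=
      (Set.toFinite _).countable
    filter_upwards [hfin.ae_notMem volume] with x hx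
    exact hsign x hx
  have hint : ∫ x, (x - a) * (x - b) * (x - d) * (exp (-U x) - q k β x) ≤ 0 :=
    integral_nonpos_of_ae hae
  -- expansion
  set h : ℝ → ℝ := fun x => exp (-U x) - q k β x with hh
  have hj : ∀ j : ℕ, Integrable (fun x => x ^ j * h x) := by
    intro j
    have := (hp j).sub (hq j).1
    refine this.congr (Eventually.of_forall fun x => ?_)
    simp only [hh, Pi.sub_apply]
    ring
  have hjv : ∀ j : ℕ, ∫ x, x ^ j * h x = (∫ x, x ^ j * exp (-U x)) -
      (1 / β) ^ j * (Gamma (k + 1 + j) / Gamma (k + 1)) := by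
    intro j
    rw [← (hq j).2, ← integral_sub (hp j) (hq j).1]
    refine integral_congr_ae (Eventually.of_forall fun x => ?_)
    simp only [hh]
    ring
  have hexp : ∫ x, (x - a) * (x - b) * (x - d) * h x =
      (∫ x, x ^ 3 * h x) - (a + b + d) * (∫ x, x ^ 2 * h x) +
        (a * b + b * d + a * d) * (∫ x, x ^ 1 * h x) - a * b * d * ∫ x, x ^ 0 * h x := by
    rw [← int_comb (hj 0) (hj 1) (hj 2) (hj 3)]
    refine integral_congr_ae (Eventually.of_forall fun x => ?_)
    simp only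
    ring
  have hG : Gamma (k + 1) ≠ 0 := (Gamma_pos_of_pos (by linarith)).ne'
  have z0 : ∫ x, x ^ 0 * h x = 0 := by
    rw [hjv 0]
    simp only [pow_zero, one_mul, Nat.cast_zero, add_zero, div_self hG, hm0, sub_self]
  have z1 : ∫ x, x ^ 1 * h x = 0 := by
    rw [hjv 1, gam1 (by linarith)]
    simp only [pow_one]
    rw [hm1]
    ring
  have z2 : ∫ x, x ^ 2 * h x = 0 := by
    rw [hjv 2, gam2 (by linarith), hm2]
    rw [div_pow, one_pow]
    ring
  have z3 : ∫ x, x ^ 3 * h x ≤ 0 := by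
    rw [hexp, z0, z1, z2] at hint
    linarith
  rw [hjv 3, gam3 (by linarith)] at z3
  have e : (1 / β) ^ 3 * ((k + 1 + 2) * (k + 1 + 1) * (k + 1)) =
      (k + 3) * (k + 2) * (k + 1) / β ^ 3 := by
    rw [div_pow, one_pow]
    ring
  rw [e] at z3
  linarith

/-- Upper bound for the third central moment. -/
theorem third_le' {W W1 W2 : ℝ → ℝ} {c0 c : ℝ} (hW1 : ∀ x, HasDerivAt W (W1 x) x)
    (hW2 : ∀ x, HasDerivAt W1 (W2 x) x) (hc0 : 0 < c0) (h0 : ∀ x, c0 ≤ W2 x) (hc : 0 < c)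
    (hL : ∀ x y, |(√(W2 x))⁻¹ - (√(W2 y))⁻¹| ≤ c * |x - y|) {Z m v : ℝ}
    (hZ : Z = ∫ x, exp (-W x)) (hm : m = (∫ x, x * exp (-W x)) / Z)
    (hv : v = (∫ x, (x - m) ^ 2 * exp (-W x)) / Z) :
    (∫ x, (x - m) ^ 3 * exp (-W x)) / Z ≤ 2 * (c / √(1 + c ^ 2)) * √v ^ 3 := by
  have hWc : Continuous W := continuous_iff_continuousAt.2 fun x => (hW1 x).continuousAt
  have hp := integrable_pow_mul hWc hc0 (growth hW1 hW2 h0)
  have hI0 : Integrable (fun x => exp (-W x)) := by simpa using hp 0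
  have hZpos : 0 < Z := by
    rw [hZ]
    exact integral_exp_pos hI0
  have hI1 : Integrable (fun x => x * exp (-W x)) := by simpa using hp 1
  have hI2 := hp 2
  have hI3 := hp 3
  -- positivity of the variance
  have hIc2 : Integrable (fun x => (x - m) ^ 2 * exp (-W x)) := by
    have := (hI2.sub (hI1.const_mul (2 * m))).add (hI0.const_mul (m ^ 2))
    refine this.congr (Eventually.of_forall fun x => ?_)
    simp only [Pi.sub_apply, Pi.add_apply]
    ring
  have hvpos : 0 < v := by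
    rw [hv]
    apply div_pos _ hZpos
    rw [integral_pos_iff_support_of_nonneg (fun x => mul_nonneg (sq_nonneg _) (exp_pos _).le) hIc2]
    have hsup : Function.support (fun x => (x - m) ^ 2 * exp (-W x)) = {m}ᶜ := by
      ext x
      simp only [Function.mem_support, mem_compl_iff, mem_singleton_iff]
      constructor
      · intro h hx
        apply h
        rw [hx]
        simp
      · intro h
        exact mul_ne_zero (pow_ne_zero _ (sub_ne_zero.2 h)) (exp_pos _).ne'
    rw [hsup]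
    have : volume ({m}ᶜ : Set ℝ) = ⊤ := by
      rw [measure_compl (measurableSet_singleton m) (by simp)]
      simp
    rw [this]
    exact ENNReal.zero_lt_top
  obtain ⟨k, hk⟩ : ∃ k : ℝ, k = 1 / c ^ 2 := ⟨_, rfl⟩
  have hkpos : 0 < k := by rw [hk]; positivity
  set β : ℝ := √(k + 1) / √v with hβ
  have hs1 : 0 < √(k + 1) := Real.sqrt_pos.2 (by linarith)
  have hsv : 0 < √v := Real.sqrt_pos.2 hvpos
  have hβpos : 0 < β := div_pos hs1 hsv
  set x0 : ℝ := m - (k + 1) / β with hx0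
  set U : ℝ → ℝ := fun x => W (x + x0) + log Z with hU
  have hexpU : ∀ x, exp (-U x) = exp (-W (x + x0)) / Z := by
    intro x
    simp only [hU]
    rw [neg_add, exp_add, exp_neg (log Z), exp_log hZpos]
    rfl
  have hU1 : ∀ x, HasDerivAt U (W1 (x + x0)) x := by
    intro x
    exact ((hW1 (x + x0)).comp_add_const x x0).add_const _
  have hU2 : ∀ x, HasDerivAt (fun x => W1 (x + x0)) (W2 (x + x0)) x := by
    intro x
    exact (hW2 (x + x0)).comp_add_const x x0
  -- moments of the translated density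
  have hmom : ∀ f : ℝ → ℝ, ∫ x, f x * exp (-U x) = (∫ x, f (x - x0) * exp (-W x)) / Z := by
    intro f
    have h1 : ∫ x, f x * exp (-U x) = (∫ x, f x * exp (-W (x + x0))) / Z := by
      rw [← integral_div]
      refine integral_congr_ae (Eventually.of_forall fun x => ?_)
      simp only [hexpU]
      ring
    rw [h1]
    congr 1
    have h2 := integral_add_right_eq_self (μ := (volume : Measure ℝ))
      (fun x => f (x - x0) * exp (-W x)) x0
    rw [← h2]
    refine integral_congr_ae (Eventually.of_forall fun x => ?_)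
    simp only [add_sub_cancel_right]
  have hmZ : ∫ x, x * exp (-W x) = m * Z := by
    rw [hm]; field_simp
  have hvZ : ∫ x, (x - m) ^ 2 * exp (-W x) = v * Z := by
    rw [hv]; field_simp
  have hc1 : ∫ x, (x - m) * exp (-W x) = 0 := by
    have : ∫ x, (x - m) * exp (-W x) = (∫ x, x * exp (-W x)) - m * ∫ x, exp (-W x) := by
      rw [← integral_const_mul, ← integral_sub hI1 (hI0.const_mul m)]
      refine integral_congr_ae (Eventually.of_forall fun x => ?_)
      simp only
      ring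
    rw [this, hmZ, ← hZ]
    ring
  have hIc1 : Integrable (fun x => (x - m) * exp (-W x)) := by
    have := hI1.sub (hI0.const_mul m)
    refine this.congr (Eventually.of_forall fun x => ?_)
    simp only [Pi.sub_apply]
    ring
  have hIc3 : Integrable (fun x => (x - m) ^ 3 * exp (-W x)) := by
    have := ((hI3.sub (hI2.const_mul (3 * m))).add (hI1.const_mul (3 * m ^ 2))).sub
      (hI0.const_mul (m ^ 3))
    refine this.congr (Eventually.of_forall fun x => ?_)
    simp only [Pi.sub_apply, Pi.add_apply]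
    ring
  set T := ∫ x, (x - m) ^ 3 * exp (-W x) with hT
  set r : ℝ := (k + 1) / β with hr
  have hmx : m = x0 + r := by rw [hx0]; ring
  have hm0 : ∫ x, exp (-U x) = 1 := by
    have := hmom (fun _ => 1)
    simp only [one_mul] at this
    rw [this, ← hZ, div_self hZpos.ne']
  have hm1 : ∫ x, x * exp (-U x) = (k + 1) / β := by
    have h1 := hmom (fun x => x)
    rw [h1, div_eq_iff hZpos.ne']
    have h2 := int_comb hI0 hIc1 hIc1 hIc1 0 0 (-r)
    have h3 : ∫ x, (x - x0) * exp (-W x) = ∫ x, ((x - m) * exp (-W x) -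
        0 * ((x - m) * exp (-W x)) + 0 * ((x - m) * exp (-W x)) - (-r) * exp (-W x)) := by
      refine integral_congr_ae (Eventually.of_forall fun x => ?_)
      simp only
      rw [hmx]
      ring
    rw [h3, h2, hc1, ← hZ]
    ring
  have hrv : r ^ 2 = (k + 1) * v := by
    rw [hr, hβ]
    have e1 : √(k + 1) ^ 2 = k + 1 := Real.sq_sqrt (by linarith)
    have e2 : √v ^ 2 = v := Real.sq_sqrt hvpos.le
    rw [div_div_eq_mul_div, div_pow, mul_pow, e1, e2]
    field_simp
  have hβv : 1 / β ^ 2 = v / (k + 1) := by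
    rw [hβ, div_pow, Real.sq_sqrt (by linarith), Real.sq_sqrt hvpos.le, one_div_div]
  have hm2 : ∫ x, x ^ 2 * exp (-U x) = (k + 2) * (k + 1) / β ^ 2 := by
    have h1 := hmom (fun x => x ^ 2)
    rw [h1, div_eq_iff hZpos.ne']
    have h2 := int_comb hI0 hIc1 hIc2 hIc2 0 (2 * r) (-r ^ 2)
    have h3 : ∫ x, (x - x0) ^ 2 * exp (-W x) = ∫ x, ((x - m) ^ 2 * exp (-W x) -
        0 * ((x - m) ^ 2 * exp (-W x)) + (2 * r) * ((x - m) * exp (-W x)) -
          (-r ^ 2) * exp (-W x)) := by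
      refine integral_congr_ae (Eventually.of_forall fun x => ?_)
      simp only
      rw [hmx]
      ring
    rw [h3, h2, hc1, ← hZ, hvZ, hrv]
    have e : (k + 2) * (k + 1) / β ^ 2 = (k + 2) * v := by
      rw [← mul_one_div, hβv]
      field_simp
    rw [e]
    ring
  have hmain := core (U := U) (U1 := fun x => W1 (x + x0)) (U2 := fun x => W2 (x + x0)) hU1 hU2 hc0
    (fun x => h0 _) hc hk hβpos (fun x y => by
      have := hL (x + x0) (y + x0)
      rwa [add_sub_add_right_eq_sub] at this) hm0 hm1 hm2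
  have h1 := hmom (fun x => x ^ 3)
  rw [h1] at hmain
  have h2 := int_comb hI0 hIc1 hIc2 hIc3 (-(3 * r)) (3 * r ^ 2) (-r ^ 3)
  have h3 : ∫ x, (x - x0) ^ 3 * exp (-W x) = ∫ x, ((x - m) ^ 3 * exp (-W x) -
      (-(3 * r)) * ((x - m) ^ 2 * exp (-W x)) + (3 * r ^ 2) * ((x - m) * exp (-W x)) -
        (-r ^ 3) * exp (-W x)) := by
    refine integral_congr_ae (Eventually.of_forall fun x => ?_)
    simp only
    rw [hmx]
    ring
  rw [h3, h2, hc1, ← hZ, hvZ] at hmain
  have h4 : (T - -(3 * r) * (v * Z) + 3 * r ^ 2 * 0 - -r ^ 3 * Z) / Z = T / Z + 3 * r * v + r ^ 3 := by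
    field_simp
    ring
  rw [h4] at hmain
  -- arithmetic: r = (k+1)/β, v = (k+1)/β²
  have hvβ : v = (k + 1) / β ^ 2 := by
    rw [← mul_one_div, hβv]
    field_simp
  have h5 : T / Z ≤ 2 * (k + 1) / β ^ 3 := by
    have e : (k + 3) * (k + 2) * (k + 1) / β ^ 3 - 3 * r * v - r ^ 3 = 2 * (k + 1) / β ^ 3 := by
      rw [hvβ, hr]
      field_simp
      ring
    linarith
  refine h5.trans (le_of_eq ?_)
  rw [hβ, div_pow]
  have e1 : √(k + 1) ^ 3 = (k + 1) * √(k + 1) := by
    rw [pow_succ, Real.sq_sqrt (by linarith)]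
  rw [e1]
  have e2 : √(1 + c ^ 2) = c * √(k + 1) := by
    have : 1 + c ^ 2 = c ^ 2 * (k + 1) := by
      rw [hk]; field_simp
    rw [this, Real.sqrt_mul (by positivity), Real.sqrt_sq hc.le]
  rw [e2]
  field_simp

/-- `c`-self-concordance in one dimension (in the form: `(W'')^{-1/2}` is `c`-Lipschitz) bounds the
third central moment. -/
theorem third_le {W W1 W2 : ℝ → ℝ} {c0 c : ℝ} (hW1 : ∀ x, HasDerivAt W (W1 x) x)
    (hW2 : ∀ x, HasDerivAt W1 (W2 x) x) (hc0 : 0 < c0) (h0 : ∀ x, c0 ≤ W2 x) (hc : 0 < c)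
    (hL : ∀ x y, |(√(W2 x))⁻¹ - (√(W2 y))⁻¹| ≤ c * |x - y|) {Z m v : ℝ}
    (hZ : Z = ∫ x, exp (-W x)) (hm : m = (∫ x, x * exp (-W x)) / Z)
    (hv : v = (∫ x, (x - m) ^ 2 * exp (-W x)) / Z) :
    |(∫ x, (x - m) ^ 3 * exp (-W x)) / Z| ≤ 2 * (c / √(1 + c ^ 2)) * √v ^ 3 := by
  have hup := third_le' hW1 hW2 hc0 h0 hc hL hZ hm hv
  have hneg1 : ∀ x, HasDerivAt (fun x => W (-x)) (-W1 (-x)) x := by
    intro x
    have := (hW1 (-x)).comp x (hasDerivAt_neg x)
    rw [mul_neg, mul_one] at this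
    exact this
  have hneg2 : ∀ x, HasDerivAt (fun x => -W1 (-x)) (W2 (-x)) x := by
    intro x
    have := ((hW2 (-x)).comp x (hasDerivAt_neg x)).neg
    rw [mul_neg, mul_one, neg_neg] at this
    exact this
  have hdn := third_le' (W := fun x => W (-x)) (W1 := fun x => -W1 (-x)) (W2 := fun x => W2 (-x))
    (Z := Z) (m := -m) (v := v) hneg1 hneg2 hc0 (fun x => h0 _) hc (fun x y => by
      have := hL (-x) (-y)
      rwa [show -x - -y = -(x - y) by ring, abs_neg] at this)
    (by rw [hZ]; exact (integral_neg_eq_self (fun x => exp (-W x)) volume).symm)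
    (by
      rw [hm, ← integral_neg_eq_self (fun x => x * exp (-W x)) volume, ← neg_div, ← integral_neg]
      congr 1
      refine integral_congr_ae (Eventually.of_forall fun x => ?_)
      simp)
    (by
      rw [hv, ← integral_neg_eq_self (fun x => (x - m) ^ 2 * exp (-W x)) volume]
      congr 1
      refine integral_congr_ae (Eventually.of_forall fun x => ?_)
      simp only
      ring)
  have e : ∫ x, (x - -m) ^ 3 * exp (-W (-x)) = - ∫ x, (x - m) ^ 3 * exp (-W x) := by
    rw [← integral_neg_eq_self (fun x => (x - m) ^ 3 * exp (-W x)) volume, ← integral_neg]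
    refine integral_congr_ae (Eventually.of_forall fun x => ?_)
    simp only
    ring
  rw [e, neg_div] at hdn
  rw [abs_le]
  constructor
  · linarith
  · exact hup

/-- The simpler form. -/
theorem third_le_two {W W1 W2 : ℝ → ℝ} {c0 c : ℝ} (hW1 : ∀ x, HasDerivAt W (W1 x) x)
    (hW2 : ∀ x, HasDerivAt W1 (W2 x) x) (hc0 : 0 < c0) (h0 : ∀ x, c0 ≤ W2 x) (hc : 0 < c)
    (hL : ∀ x y, |(√(W2 x))⁻¹ - (√(W2 y))⁻¹| ≤ c * |x - y|) {Z m v : ℝ}
    (hZ : Z = ∫ x, exp (-W x)) (hm : m = (∫ x, x * exp (-W x)) / Z)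
    (hv : v = (∫ x, (x - m) ^ 2 * exp (-W x)) / Z) :
    |(∫ x, (x - m) ^ 3 * exp (-W x)) / Z| ≤ 2 * c * √v ^ 3 := by
  refine (third_le hW1 hW2 hc0 h0 hc hL hZ hm hv).trans ?_
  have h1 : c / √(1 + c ^ 2) ≤ c := by
    apply div_le_self hc.le
    rw [Real.one_le_sqrt]
    nlinarith
  have h2 : 0 ≤ √v ^ 3 := by positivity
  nlinarith

/-- The differential form of self-concordance implies the Lipschitz form. -/
theorem lip_of_sc {W2 W3 : ℝ → ℝ} {c0 c : ℝ} (hW3 : ∀ x, HasDerivAt W2 (W3 x) x) (hc0 : 0 < c0)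
    (h0 : ∀ x, c0 ≤ W2 x) (hsc : ∀ x, |W3 x| ≤ 2 * c * √(W2 x) ^ 3) (x y : ℝ) :
    |(√(W2 x))⁻¹ - (√(W2 y))⁻¹| ≤ c * |x - y| := by
  have hpos : ∀ x, 0 < W2 x := fun x => hc0.trans_le (h0 x)
  have hd : ∀ x, HasDerivAt (fun x => (√(W2 x))⁻¹) (-(W3 x / (2 * √(W2 x))) / √(W2 x) ^ 2) x := by
    intro x
    exact ((hW3 x).sqrt (hpos x).ne').inv (Real.sqrt_pos.2 (hpos x)).ne'
  have hb : ∀ x, ‖-(W3 x / (2 * √(W2 x))) / √(W2 x) ^ 2‖ ≤ c := by
    intro x
    have hs := Real.sqrt_pos.2 (hpos x)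
    rw [Real.norm_eq_abs, abs_div, abs_neg, abs_div, abs_of_pos (by positivity : 0 < 2 * √(W2 x)),
      abs_of_pos (by positivity : 0 < √(W2 x) ^ 2), div_div, div_le_iff₀ (by positivity)]
    refine (hsc x).trans (le_of_eq ?_)
    ring
  have := convex_univ.norm_image_sub_le_of_norm_hasDerivWithin_le
    (f := fun x => (√(W2 x))⁻¹) (s := univ) (x := y) (y := x)
    (fun z _ => (hd z).hasDerivWithinAt) (fun z _ => hb z) (mem_univ _) (mem_univ _)
  simpa [Real.norm_eq_abs] using this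

/-- Third central moment under the differential form of self-concordance. -/
theorem third_le_sc {W W1 W2 W3 : ℝ → ℝ} {c0 c : ℝ} (hW1 : ∀ x, HasDerivAt W (W1 x) x)
    (hW2 : ∀ x, HasDerivAt W1 (W2 x) x) (hW3 : ∀ x, HasDerivAt W2 (W3 x) x) (hc0 : 0 < c0)
    (h0 : ∀ x, c0 ≤ W2 x) (hc : 0 < c) (hsc : ∀ x, |W3 x| ≤ 2 * c * √(W2 x) ^ 3) {Z m v : ℝ}
    (hZ : Z = ∫ x, exp (-W x)) (hm : m = (∫ x, x * exp (-W x)) / Z)
    (hv : v = (∫ x, (x - m) ^ 2 * exp (-W x)) / Z) :
    |(∫ x, (x - m) ^ 3 * exp (-W x)) / Z| ≤ 2 * c * √v ^ 3 :=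
  third_le_two hW1 hW2 hc0 h0 hc (lip_of_sc hW3 hc0 h0 hsc) hZ hm hv

end Vale.Agent.P227.M.SC1
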