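import Vale.Agent.P227.M.Bas

/-! # P227/M: basic facts (part 2): the expectation `Ex`; calculus of `pd`, `hess`; test functions. -/

open MeasureTheory
open scoped Topology

namespace Vale.Agent.P227.M

variable {n : ℕ}

/-! ## `Ex` -/

theorem Ex_congr (V : E n → ℝ) {f g : E n → ℝ} (h : ∀ x, f x = g x) : Ex V f = Ex V g := by
  rw [funext h]

theorem Ex_const_mul (V : E n → ℝ) (a : ℝ) (f : E n → ℝ) :
    Ex V (fun x => a * f x) = a * Ex V f := by
  unfold Ex
  simp only [mul_assoc]
  rw [integral_const_mul, mul_div_assoc]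

theorem Ex_neg (V f : E n → ℝ) : Ex V (fun x => -f x) = -Ex V f := by
  have h := Ex_const_mul V (-1) f
  simpa using h

theorem Ex_zero (V : E n → ℝ) : Ex V (fun _ => 0) = 0 := by simp [Ex]

theorem Ex_nonneg (V : E n → ℝ) {f : E n → ℝ} (hf : ∀ x, 0 ≤ f x) : 0 ≤ Ex V f :=
  div_nonneg (integral_nonneg fun x => mul_nonneg (hf x) (Real.exp_pos _).le)
    (integral_nonneg fun _ => (Real.exp_pos _).le)

/-- odd functions have zero expectation for an even potential -/
theorem Ex_odd {V f : E n → ℝ} (hV : ∀ x, V (-x) = V x) (hf : ∀ x, f (-x) = -f x) :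
    Ex V f = 0 := by
  have h : (∫ x, f x * Real.exp (-V x)) = ∫ x, f (-x) * Real.exp (-V (-x)) :=
    (integral_neg_eq_self (fun x => f x * Real.exp (-V x)) volume).symm
  simp only [hV, hf, neg_mul, integral_neg] at h
  have h0 : (∫ x, f x * Real.exp (-V x)) = 0 := by linarith
  unfold Ex
  rw [h0, zero_div]

section

variable {V : E n → ℝ} {c C : ℝ}

theorem Ex_add (h : Reg V c C) {f g : E n → ℝ} (hf : Gr f) (hg : Gr g) :
    Ex V (fun x => f x + g x) = Ex V f + Ex V g := by
  unfold Ex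
  simp only [add_mul]
  rw [integral_add (h.integrable_gr hf) (h.integrable_gr hg), add_div]

theorem Ex_sub (h : Reg V c C) {f g : E n → ℝ} (hf : Gr f) (hg : Gr g) :
    Ex V (fun x => f x - g x) = Ex V f - Ex V g := by
  unfold Ex
  simp only [sub_mul]
  rw [integral_sub (h.integrable_gr hf) (h.integrable_gr hg), sub_div]

theorem Ex_const (h : Reg V c C) (a : ℝ) : Ex V (fun _ => a) = a := by
  have hz := h.Z_pos
  unfold Ex
  rw [integral_const_mul, mul_div_assoc, div_self hz.ne', mul_one]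

theorem Ex_sum (h : Reg V c C) {ι : Type*} (s : Finset ι) {f : ι → E n → ℝ}
    (hf : ∀ i ∈ s, Gr (f i)) : Ex V (fun x => ∑ i ∈ s, f i x) = ∑ i ∈ s, Ex V (f i) := by
  unfold Ex
  simp only [Finset.sum_mul]
  rw [integral_finsetSum s fun i hi => h.integrable_gr (hf i hi), Finset.sum_div]

theorem Ex_mono (h : Reg V c C) {f g : E n → ℝ} (hf : Gr f) (hg : Gr g) (hfg : ∀ x, f x ≤ g x) :
    Ex V f ≤ Ex V g := by
  have h1 := Ex_sub h hg hf
  have h2 : 0 ≤ Ex V (fun x => g x - f x) := Ex_nonneg V fun x => sub_nonneg.2 (hfg x)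
  linarith

theorem abs_Ex_le (h : Reg V c C) {f : E n → ℝ} (hf : Gr f) :
    |Ex V f| ≤ Ex V (fun x => |f x|) := by
  rw [abs_le]
  constructor
  · rw [← Ex_neg]
    exact Ex_mono h hf.abs.neg hf fun x => neg_abs_le _
  · exact Ex_mono h hf hf.abs fun x => le_abs_self _

theorem sq_le_of_quad {A B D : ℝ} (h : ∀ t : ℝ, 0 ≤ A + 2 * t * B + t ^ 2 * D) : B ^ 2 ≤ A * D := by
  have h1 := discrim_le_zero (a := D) (b := 2 * B) (c := A) fun t => by
    have := h t
    nlinarith
  unfold discrim at h1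
  nlinarith

/-- Cauchy-Schwarz, vector version -/
theorem Ex_sq_le_sum (h : Reg V c C) {ι : Type*} (s : Finset ι) {f g : ι → E n → ℝ}
    (hf : ∀ i ∈ s, Gr (f i)) (hg : ∀ i ∈ s, Gr (g i)) :
    (Ex V (fun x => ∑ i ∈ s, f i x * g i x)) ^ 2 ≤
      Ex V (fun x => ∑ i ∈ s, f i x ^ 2) * Ex V (fun x => ∑ i ∈ s, g i x ^ 2) := by
  refine sq_le_of_quad fun t => ?_
  have h1 : Gr (fun x => ∑ i ∈ s, f i x ^ 2) := Gr.sum s fun i hi => (hf i hi).pow 2
  have h2 : Gr (fun x => ∑ i ∈ s, g i x ^ 2) := Gr.sum s fun i hi => (hg i hi).pow 2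
  have h3 : Gr (fun x => ∑ i ∈ s, f i x * g i x) := Gr.sum s fun i hi => (hf i hi).mul (hg i hi)
  have h4 : Ex V (fun x => (∑ i ∈ s, f i x ^ 2) + 2 * t * (∑ i ∈ s, f i x * g i x)
      + t ^ 2 * ∑ i ∈ s, g i x ^ 2) = Ex V (fun x => ∑ i ∈ s, f i x ^ 2)
        + 2 * t * Ex V (fun x => ∑ i ∈ s, f i x * g i x)
        + t ^ 2 * Ex V (fun x => ∑ i ∈ s, g i x ^ 2) := by
    rw [Ex_add h (h1.add (h3.const_mul (2 * t))) (h2.const_mul (t ^ 2)),
      Ex_add h h1 (h3.const_mul (2 * t)), Ex_const_mul, Ex_const_mul]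
  rw [← h4]
  refine Ex_nonneg V fun x => ?_
  have h5 : (∑ i ∈ s, f i x ^ 2) + 2 * t * (∑ i ∈ s, f i x * g i x) + t ^ 2 * ∑ i ∈ s, g i x ^ 2
      = ∑ i ∈ s, (f i x + t * g i x) ^ 2 := by
    rw [Finset.mul_sum, Finset.mul_sum, ← Finset.sum_add_distrib, ← Finset.sum_add_distrib]
    refine Finset.sum_congr rfl fun i _ => ?_
    ring
  rw [h5]
  exact Finset.sum_nonneg fun i _ => sq_nonneg _

/-- Cauchy-Schwarz -/
theorem Ex_sq_le (h : Reg V c C) {f g : E n → ℝ} (hf : Gr f) (hg : Gr g) :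
    (Ex V (fun x => f x * g x)) ^ 2 ≤ Ex V (fun x => f x ^ 2) * Ex V (fun x => g x ^ 2) := by
  have h1 := Ex_sq_le_sum h (Finset.univ : Finset Unit) (f := fun _ => f) (g := fun _ => g)
    (fun _ _ => hf) (fun _ _ => hg)
  simpa using h1

theorem Ex_abs_mul_le (h : Reg V c C) {f g : E n → ℝ} (hf : Gr f) (hg : Gr g) :
    |Ex V (fun x => f x * g x)| ≤
      Real.sqrt (Ex V (fun x => f x ^ 2)) * Real.sqrt (Ex V (fun x => g x ^ 2)) := by
  rw [← Real.sqrt_mul (Ex_nonneg V fun x => sq_nonneg _)]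
  exact Real.abs_le_sqrt (Ex_sq_le h hf hg)

/-- variance is nonnegative -/
theorem sq_Ex_le (h : Reg V c C) {f : E n → ℝ} (hf : Gr f) :
    (Ex V f) ^ 2 ≤ Ex V (fun x => f x ^ 2) := by
  have h1 := Ex_sq_le h hf (Gr.const 1)
  simpa [Ex_const h] using h1

end

/-! ## Calculus of `pd` and `hess` -/

theorem pd_add {f g : E n → ℝ} (hf : Differentiable ℝ f) (hg : Differentiable ℝ g) (i : Fin n)
    (x : E n) : pd i (fun z => f z + g z) x = pd i f x + pd i g x := by
  unfold pd
  have h := fderiv_add (hf x) (hg x)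
  have h' : fderiv ℝ (fun z => f z + g z) x = fderiv ℝ f x + fderiv ℝ g x := h
  rw [h']
  rfl

theorem pd_sub {f g : E n → ℝ} (hf : Differentiable ℝ f) (hg : Differentiable ℝ g) (i : Fin n)
    (x : E n) : pd i (fun z => f z - g z) x = pd i f x - pd i g x := by
  unfold pd
  have h := fderiv_sub (hf x) (hg x)
  have h' : fderiv ℝ (fun z => f z - g z) x = fderiv ℝ f x - fderiv ℝ g x := h
  rw [h']
  rfl

theorem pd_neg (f : E n → ℝ) (i : Fin n) (x : E n) : pd i (fun z => -f z) x = -pd i f x := by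
  unfold pd
  have h' : fderiv ℝ (fun z => -f z) x = -fderiv ℝ f x := fderiv_neg
  rw [h']
  rfl

theorem pd_mul {f g : E n → ℝ} (hf : Differentiable ℝ f) (hg : Differentiable ℝ g) (i : Fin n)
    (x : E n) : pd i (fun z => f z * g z) x = pd i f x * g x + f x * pd i g x := by
  unfold pd
  have h := (((hf x).hasFDerivAt).mul ((hg x).hasFDerivAt)).fderiv
  have h' : fderiv ℝ (fun z => f z * g z) x = f x • fderiv ℝ g x + g x • fderiv ℝ f x := h
  rw [h']
  simp only [add_apply, smul_apply, smul_eq_mul]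
  ring

theorem pd_const (a : ℝ) (i : Fin n) (x : E n) : pd i (fun _ => a) x = 0 := by
  unfold pd
  simp

theorem pd_const_mul {f : E n → ℝ} (a : ℝ) (hf : Differentiable ℝ f) (i : Fin n)
    (x : E n) : pd i (fun z => a * f z) x = a * pd i f x := by
  rw [pd_mul (differentiable_const a) hf]
  rw [pd_const]
  ring

theorem pd_sum {ι : Type*} (s : Finset ι) {f : ι → E n → ℝ}
    (hf : ∀ j ∈ s, Differentiable ℝ (f j)) (i : Fin n) (x : E n) :
    pd i (fun z => ∑ j ∈ s, f j z) x = ∑ j ∈ s, pd i (f j) x := by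
  unfold pd
  have h := fderiv_fun_sum (𝕜 := ℝ) (u := s) (x := x) (A := f) fun j hj => (hf j hj) x
  rw [h]
  simp

theorem pd_coord (i j : Fin n) (x : E n) : pd i (fun z : E n => z j) x = if j = i then 1 else 0 := by
  have h : HasFDerivAt (fun z : E n => z j) (EuclideanSpace.proj j : E n →L[ℝ] ℝ) x :=
    (EuclideanSpace.proj j : E n →L[ℝ] ℝ).hasFDerivAt
  unfold pd
  rw [h.fderiv]
  exact ei_apply i j

theorem fderiv_neg_arg (f : E n → ℝ) (x v : E n) :
    fderiv ℝ (fun z => f (-z)) x v = -fderiv ℝ f (-x) v := by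
  have h := (ContinuousLinearEquiv.neg ℝ (M := E n)).comp_right_fderiv (f := f) (x := x)
  have h' : fderiv ℝ (fun z => f (-z)) x = (fderiv ℝ f (-x)).comp
    ((ContinuousLinearEquiv.neg ℝ : E n ≃L[ℝ] E n) : E n →L[ℝ] E n) := h
  rw [h']
  simp

/-- the derivative of an even function is odd -/
theorem pd_even {f : E n → ℝ} (hf : ∀ x, f (-x) = f x) (i : Fin n) (x : E n) :
    pd i f (-x) = -pd i f x := by
  have h := fderiv_neg_arg f x (ei i)
  have h2 : (fun z => f (-z)) = f := funext hf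
  rw [h2] at h
  unfold pd
  linarith

/-- the derivative of an odd function is even -/
theorem pd_odd {f : E n → ℝ} (hf : ∀ x, f (-x) = -f x) (i : Fin n) (x : E n) :
    pd i f (-x) = pd i f x := by
  have h := fderiv_neg_arg f x (ei i)
  have h2 : (fun z => f (-z)) = fun z => -f z := funext hf
  have h3 := pd_neg f i x
  rw [h2] at h
  unfold pd at h3 ⊢
  linarith

theorem hess_even {f : E n → ℝ} (hf : ∀ x, f (-x) = f x) (x : E n) : hess f (-x) = hess f x := by
  ext i j
  exact pd_odd (pd_even hf j) i x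

theorem hess_add {f g : E n → ℝ} (hf : ContDiff ℝ 2 f) (hg : ContDiff ℝ 2 g) (x : E n)
    (i j : Fin n) : hess (fun z => f z + g z) x i j = hess f x i j + hess g x i j := by
  unfold hess
  have h1 : pd j (fun z => f z + g z) = fun z => pd j f z + pd j g z := funext fun z =>
    pd_add (hf.differentiable (by norm_num)) (hg.differentiable (by norm_num)) j z
  rw [h1, pd_add]
  · exact (contDiff_pd (k := 1) hf (by norm_num) j).differentiable (by norm_num)
  · exact (contDiff_pd (k := 1) hg (by norm_num) j).differentiable (by norm_num)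

theorem hess_neg (f : E n → ℝ) (x : E n)
    (i j : Fin n) : hess (fun z => -f z) x i j = -hess f x i j := by
  unfold hess
  have h1 : pd j (fun z => -f z) = fun z => -pd j f z := funext fun z => pd_neg f j z
  rw [h1, pd_neg]

theorem hess_sub {f g : E n → ℝ} (hf : ContDiff ℝ 2 f) (hg : ContDiff ℝ 2 g) (x : E n)
    (i j : Fin n) : hess (fun z => f z - g z) x i j = hess f x i j - hess g x i j := by
  have h := hess_add hf hg.neg x i j
  have h2 := hess_neg g x i j
  rw [sub_eq_add_neg, ← h2, ← h]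
  simp only [sub_eq_add_neg]

theorem hess_const_mul {f : E n → ℝ} (a : ℝ) (hf : ContDiff ℝ 2 f) (x : E n)
    (i j : Fin n) : hess (fun z => a * f z) x i j = a * hess f x i j := by
  unfold hess
  have h1 : pd j (fun z => a * f z) = fun z => a * pd j f z := funext fun z =>
    pd_const_mul a (hf.differentiable (by norm_num)) j z
  rw [h1, pd_const_mul]
  exact (contDiff_pd (k := 1) hf (by norm_num) j).differentiable (by norm_num)

theorem hess_sum {ι : Type*} (s : Finset ι) {f : ι → E n → ℝ}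
    (hf : ∀ k ∈ s, ContDiff ℝ 2 (f k)) (x : E n) (i j : Fin n) :
    hess (fun z => ∑ k ∈ s, f k z) x i j = ∑ k ∈ s, hess (f k) x i j := by
  unfold hess
  have h1 : pd j (fun z => ∑ k ∈ s, f k z) = fun z => ∑ k ∈ s, pd j (f k) z := funext fun z =>
    pd_sum s (fun k hk => (hf k hk).differentiable (by norm_num)) j z
  rw [h1, pd_sum]
  exact fun k hk => (contDiff_pd (k := 1) (hf k hk) (by norm_num) j).differentiable (by norm_num)

/-- `D²(fg) = g D²f + f D²g + ∇f ⊗ ∇g + ∇g ⊗ ∇f` -/
theorem hess_mul {f g : E n → ℝ} (hf : ContDiff ℝ 2 f) (hg : ContDiff ℝ 2 g) (x : E n)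
    (i j : Fin n) : hess (fun z => f z * g z) x i j = hess f x i j * g x + f x * hess g x i j
      + pd j f x * pd i g x + pd i f x * pd j g x := by
  unfold hess
  have df : Differentiable ℝ f := hf.differentiable (by norm_num)
  have dg : Differentiable ℝ g := hg.differentiable (by norm_num)
  have dpf : Differentiable ℝ (pd j f) :=
    (contDiff_pd (k := 1) hf (by norm_num) j).differentiable (by norm_num)
  have dpg : Differentiable ℝ (pd j g) :=
    (contDiff_pd (k := 1) hg (by norm_num) j).differentiable (by norm_num)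
  have h1 : pd j (fun z => f z * g z) = fun z => pd j f z * g z + f z * pd j g z := funext fun z =>
    pd_mul df dg j z
  have h2 := pd_add (f := fun z => pd j f z * g z) (g := fun z => f z * pd j g z)
    (dpf.mul dg) (df.mul dpg) i x
  rw [h1, h2, pd_mul dpf dg, pd_mul df dpg]
  ring

/-! ## Supports and test functions -/

theorem hasCompactSupport_pd {f : E n → ℝ} (hs : HasCompactSupport f) (i : Fin n) :
    HasCompactSupport (pd i f) := hs.fderiv_apply (𝕜 := ℝ) (ei i)

theorem hasCompactSupport_hess {f : E n → ℝ} (hs : HasCompactSupport f) (i j : Fin n) :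
    HasCompactSupport (fun x => hess f x i j) :=
  hasCompactSupport_pd (hasCompactSupport_pd hs j) i

theorem hasCompactSupport_sum {ι : Type*} (s : Finset ι) {f : ι → E n → ℝ}
    (hf : ∀ i ∈ s, HasCompactSupport (f i)) : HasCompactSupport (fun x => ∑ i ∈ s, f i x) := by
  classical
  induction s using Finset.induction_on with
  | empty =>
    simp only [Finset.sum_empty]
    exact HasCompactSupport.zero
  | insert a s ha ih =>
    simp only [Finset.sum_insert ha]
    exact (hf a (Finset.mem_insert_self a s)).add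
      (ih fun i hi => hf i (Finset.mem_insert_of_mem hi))

namespace Test

variable {f g : E n → ℝ}

theorem C2 (h : Test f) : ContDiff ℝ 2 f := h.1.of_le (by norm_cast)

theorem cont (h : Test f) : Continuous f := h.1.continuous

theorem diff (h : Test f) : Differentiable ℝ f := h.C2.differentiable (by norm_num)

theorem zero : Test (fun _ : E n => (0 : ℝ)) := ⟨contDiff_const, HasCompactSupport.zero⟩

theorem add (hf : Test f) (hg : Test g) : Test (fun x => f x + g x) :=
  ⟨hf.1.add hg.1, hf.2.add hg.2⟩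

theorem neg (hf : Test f) : Test (fun x => -f x) :=
  ⟨hf.1.neg, by
    have h : HasCompactSupport (-f) := hf.2.neg
    exact h⟩

theorem sub (hf : Test f) (hg : Test g) : Test (fun x => f x - g x) := by
  have h := hf.add hg.neg
  simpa [sub_eq_add_neg] using h

theorem mul_smooth (hf : Test f) (hg : ContDiff ℝ (⊤ : ℕ∞) g) : Test (fun x => f x * g x) :=
  ⟨hf.1.mul hg, hf.2.mul_right⟩

theorem smooth_mul (hf : Test f) (hg : ContDiff ℝ (⊤ : ℕ∞) g) : Test (fun x => g x * f x) :=
  ⟨hg.mul hf.1, hf.2.mul_left⟩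

theorem const_mul (hf : Test f) (a : ℝ) : Test (fun x => a * f x) := hf.smooth_mul contDiff_const

theorem pd (hf : Test f) (i : Fin n) : Test (M.pd i f) :=
  ⟨contDiff_pd_top hf.1 i, hasCompactSupport_pd hf.2 i⟩

theorem hess (hf : Test f) (i j : Fin n) : Test (fun x => M.hess f x i j) := (hf.pd j).pd i

theorem sum {ι : Type*} (s : Finset ι) {f : ι → E n → ℝ} (hf : ∀ i ∈ s, Test (f i)) :
    Test (fun x => ∑ i ∈ s, f i x) :=
  ⟨ContDiff.sum fun i hi => (hf i hi).1, hasCompactSupport_sum s fun i hi => (hf i hi).2⟩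

theorem gr (hf : Test f) : Gr f := Gr.of_test hf.cont hf.2

theorem gr_pd (hf : Test f) (i : Fin n) : Gr (M.pd i f) := (hf.pd i).gr

theorem gr_hess (hf : Test f) (i j : Fin n) : Gr (fun x => M.hess f x i j) := (hf.hess i j).gr

theorem bdd (hf : Test f) : ∃ B, ∀ x, |f x| ≤ B := hf.2.exists_bound_of_continuous hf.cont

end Test

end Vale.Agent.P227.M
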