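import Mathlib

/-! # P227/M: definitions for the proof of log-Brunn-Minkowski by the moment map (x-space form).

`E n = EuclideanSpace ℝ (Fin n)`. `V` = potential, `ψ` = Legendre transform of the moment map potential,
`τ = (D²ψ)⁻¹`, `L f = tr (τ D²f) - ⟨x, ∇f⟩`. -/

open MeasureTheory
open scoped Topology

namespace Vale.Agent.P227.M

abbrev E (n : ℕ) := EuclideanSpace ℝ (Fin n)

/-- `i`-th basis vector -/
noncomputable def ei {n : ℕ} (i : Fin n) : E n := EuclideanSpace.single i (1 : ℝ)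

/-- `i`-th partial derivative -/
noncomputable def pd {n : ℕ} (i : Fin n) (f : E n → ℝ) (x : E n) : ℝ := fderiv ℝ f x (ei i)

/-- Hessian matrix `D²f`, entry `i j` is `∂_i ∂_j f` -/
noncomputable def hess {n : ℕ} (f : E n → ℝ) (x : E n) : Matrix (Fin n) (Fin n) ℝ :=
  fun i j => pd i (pd j f) x

/-- quadratic form of a matrix -/
noncomputable def qf {n : ℕ} (A : Matrix (Fin n) (Fin n) ℝ) (v : E n) : ℝ := ∑ i, ∑ j, A i j * v i * v j

/-- regular potential: smooth, `c ≤ D²V ≤ C`, all derivatives of order `≥ 2` bounded (not nec. even) -/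
structure Reg {n : ℕ} (V : E n → ℝ) (c C : ℝ) : Prop where
  c_pos : 0 < c
  smooth : ContDiff ℝ (⊤ : ℕ∞) V
  lower : ∀ x v, c * ‖v‖ ^ 2 ≤ qf (hess V x) v
  upper : ∀ x v, qf (hess V x) v ≤ C * ‖v‖ ^ 2
  bdd : ∀ k : ℕ, 2 ≤ k → ∃ B : ℝ, ∀ x, ‖iteratedFDeriv ℝ k V x‖ ≤ B

/-- nice potential: regular and even -/
structure Nice {n : ℕ} (V : E n → ℝ) (c C : ℝ) : Prop extends Reg V c C where
  even : ∀ x, V (-x) = V x

/-- the convex summands `V_j`: smooth, even, `0 ≤ D²V`, all derivatives of order `≥ 2` bounded -/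
structure Piece {n : ℕ} (V : E n → ℝ) : Prop where
  smooth : ContDiff ℝ (⊤ : ℕ∞) V
  even : ∀ x, V (-x) = V x
  psd : ∀ x v, 0 ≤ qf (hess V x) v
  bdd : ∀ k : ℕ, 2 ≤ k → ∃ B : ℝ, ∀ x, ‖iteratedFDeriv ℝ k V x‖ ≤ B

/-- `ψ` is (the Legendre transform of) a `C^{2,1}` moment map potential of `e^{-V}` -/
structure MM {n : ℕ} (ψ V : E n → ℝ) (c C M : ℝ) : Prop where
  c_pos : 0 < c
  C2 : ContDiff ℝ 2 ψ
  even : ∀ x, ψ (-x) = ψ x
  lower : ∀ x v, c * ‖v‖ ^ 2 ≤ qf (hess ψ x) v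
  upper : ∀ x v, qf (hess ψ x) v ≤ C * ‖v‖ ^ 2
  lip : ∀ i j x y, |hess ψ x i j - hess ψ y i j| ≤ M * ‖x - y‖
  ma : ∀ x, V x = (∑ i, x i * pd i ψ x) - ψ x - Real.log (hess ψ x).det

/-- `τ = (D²ψ)⁻¹` -/
noncomputable def tau {n : ℕ} (ψ : E n → ℝ) (x : E n) : Matrix (Fin n) (Fin n) ℝ := (hess ψ x)⁻¹

/-- `L f = tr (τ D²f) - ⟨x, ∇f⟩` -/
noncomputable def Lop {n : ℕ} (ψ f : E n → ℝ) (x : E n) : ℝ :=
  (∑ i, ∑ j, tau ψ x i j * hess f x i j) - ∑ i, x i * pd i f x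

/-- expectation with respect to `e^{-V} dx / ∫ e^{-V}` -/
noncomputable def Ex {n : ℕ} (V f : E n → ℝ) : ℝ :=
  (∫ x, f x * Real.exp (-V x)) / (∫ x, Real.exp (-V x))

/-- test functions -/
def Test {n : ℕ} (f : E n → ℝ) : Prop := ContDiff ℝ (⊤ : ℕ∞) f ∧ HasCompactSupport f

/-- log-Laplace transform -/
noncomputable def logLap {n : ℕ} (W : E n → ℝ) (y : E n) : ℝ :=
  Real.log (∫ x, Real.exp (inner ℝ x y - W x))

/-- `W` is `κ`-self-concordant (on lines) -/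
def SelfConc {n : ℕ} (κ : ℝ) (W : E n → ℝ) : Prop :=
  ∀ x v : E n, |iteratedDeriv 3 (fun t : ℝ => W (x + t • v)) 0| ≤
    2 * κ * (iteratedDeriv 2 (fun t : ℝ => W (x + t • v)) 0) ^ ((3 : ℝ) / 2)

end Vale.Agent.P227.M
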