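import Mathlib

/-! Abstract parabolic minimum principle (helper121). -/

namespace P227.M

open Set Filter Topology

/-- Abstract minimum principle: `H` continuous on `[0,S] × E`, positive outside a ball, nonnegative at
time `0`, and with positive left time derivative at every negative global spatial minimum, is
nonnegative. -/
theorem min_principle_abstract {E : Type*} [NormedAddCommGroup E] [NormedSpace ℝ E]
    [FiniteDimensional ℝ E] {S : ℝ} {H : ℝ → E → ℝ}
    (hcont : ContinuousOn (fun p : ℝ × E => H p.1 p.2) (Icc 0 S ×ˢ univ))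
    {R : ℝ} (hR : ∀ s ∈ Icc 0 S, ∀ x, R < ‖x‖ → 0 ≤ H s x)
    (h0 : ∀ x, 0 ≤ H 0 x)
    (hcrit : ∀ s ∈ Ioc 0 S, ∀ x, H s x < 0 → (∀ y, H s x ≤ H s y) →
      ∃ d, 0 < d ∧ HasDerivWithinAt (fun s' => H s' x) d (Iic s) s) :
    ∀ s ∈ Icc 0 S, ∀ x, 0 ≤ H s x := by
  intro s hs x
  by_contra hneg
  push Not at hneg
  have : ProperSpace E := FiniteDimensional.proper ℝ E
  have hxR : ‖x‖ ≤ R := by
    by_contra h
    push Not at h
    exact absurd (hR s hs x h) (not_le.mpr hneg)
  have hK : IsCompact (Icc (0:ℝ) S ×ˢ Metric.closedBall (0:E) R) :=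
    isCompact_Icc.prod (isCompact_closedBall _ _)
  have hmem : ((s, x) : ℝ × E) ∈ Icc (0:ℝ) S ×ˢ Metric.closedBall (0:E) R :=
    ⟨hs, by simpa using hxR⟩
  obtain ⟨⟨s0, x0⟩, hp, hmin⟩ := hK.exists_isMinOn ⟨_, hmem⟩
    (hcont.mono (prod_mono le_rfl (subset_univ _)))
  have hval : H s0 x0 < 0 := lt_of_le_of_lt (hmin hmem) hneg
  have hs0 : s0 ∈ Icc 0 S := hp.1
  have hs0pos : 0 < s0 := by
    rcases lt_or_eq_of_le hs0.1 with h | h
    · exact h
    · exfalso
      rw [← h] at hval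
      exact absurd (h0 x0) (not_le.mpr hval)
  have hglob : ∀ s' ∈ Icc (0:ℝ) S, ∀ y, H s0 x0 ≤ H s' y := by
    intro s' hs' y
    by_cases hy : ‖y‖ ≤ R
    · exact hmin (show ((s', y) : ℝ × E) ∈ _ from ⟨hs', by simpa using hy⟩)
    · push Not at hy
      exact hval.le.trans (hR s' hs' y hy)
  obtain ⟨d, hd, hder⟩ := hcrit s0 ⟨hs0pos, hs0.2⟩ x0 hval (fun y => hglob s0 hs0 y)
  -- left derivative is nonpositive at a minimum
  have hle : d ≤ 0 := by
    have hslope := (hasDerivWithinAt_iff_tendsto_slope.1 hder)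
    have hev : ∀ᶠ t in 𝓝[Iic s0 \ {s0}] s0, slope (fun s' => H s' x0) s0 t ≤ 0 := by
      have h1 : ∀ᶠ t in 𝓝[Iic s0 \ {s0}] s0, 0 < t :=
        (eventually_gt_nhds hs0pos).filter_mono nhdsWithin_le_nhds
      filter_upwards [h1, self_mem_nhdsWithin] with t ht htm
      have htlt : t < s0 := lt_of_le_of_ne htm.1 htm.2
      have hge := hglob t ⟨ht.le, htlt.le.trans hs0.2⟩ x0
      rw [slope_def_field]
      exact div_nonpos_of_nonneg_of_nonpos (by simpa using hge) (by linarith)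
    have hne : (𝓝[Iic s0 \ {s0}] s0).NeBot := by
      have : Iic s0 \ {s0} = Iio s0 := by
        ext t; simp [lt_iff_le_and_ne]
      rw [this]
      infer_instance
    exact le_of_tendsto hslope hev
  linarith

end P227.M
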